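import Mathlib

/-!
# Lengths on the alternating group

A subadditive class function on the alternating group of degree `n` is bounded by a constant
multiple of its value at any element which moves at least a quarter of the points.  The three
facts about involutions which are used are hypotheses here.
-/

namespace Vale.Agent.P318.R2.H924

open Finset

variable {n : ℕ}

/-- the support of an even permutation -/
abbrev sp (x : alternatingGroup (Fin n)) : Finset (Fin n) := (x : Equiv.Perm (Fin n)).support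

lemma sp_inv (x : alternatingGroup (Fin n)) : sp x⁻¹ = sp x := by
  unfold sp
  rw [Subgroup.coe_inv, Equiv.Perm.support_inv]

/-- a third of the support is moved off itself -/
lemma exists_off (τ : Equiv.Perm (Fin n)) :
    ∃ A : Finset (Fin n), A ⊆ τ.support ∧ Disjoint A (A.map τ.toEmbedding) ∧
      τ.support.card ≤ 3 * A.card := by
  classical
  obtain ⟨A, hA, hmax⟩ := Finset.exists_max_image
    ((τ.support.powerset).filter fun A => Disjoint A (A.map τ.toEmbedding)) (fun A => A.card)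
    ⟨∅, by simp⟩
  rw [mem_filter, mem_powerset] at hA
  refine ⟨A, hA.1, hA.2, ?_⟩
  have hcov : τ.support ⊆ A ∪ (A.map τ.toEmbedding ∪ A.map τ⁻¹.toEmbedding) := by
    intro x hx
    by_contra hcon
    rw [mem_union, mem_union, not_or, not_or] at hcon
    obtain ⟨h1, h2, h3⟩ := hcon
    have hx1 : τ x ≠ x := Equiv.Perm.mem_support.1 hx
    have h4 : τ x ∉ A := by
      intro h
      apply h3
      rw [mem_map]
      exact ⟨τ x, h, by simp⟩
    have hd : Disjoint (insert x A) ((insert x A).map τ.toEmbedding) := by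
      rw [map_insert, disjoint_insert_left, mem_insert, not_or, disjoint_insert_right]
      refine ⟨⟨fun h => hx1 h.symm, h2⟩, h4, hA.2⟩
    have h5 := hmax (insert x A) (by
      rw [mem_filter, mem_powerset]
      exact ⟨insert_subset hx hA.1, hd⟩)
    rw [card_insert_of_notMem h1] at h5
    omega
  calc τ.support.card ≤ (A ∪ (A.map τ.toEmbedding ∪ A.map τ⁻¹.toEmbedding)).card :=
        card_le_card hcov
    _ ≤ A.card + ((A.map τ.toEmbedding).card + (A.map τ⁻¹.toEmbedding).card) :=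
        (card_union_le _ _).trans (Nat.add_le_add_left (card_union_le _ _) _)
    _ = 3 * A.card := by rw [card_map, card_map]; ring

/-- the double commutator with a permutation which moves `A` off itself -/
lemma double_comm {A : Finset (Fin n)} {τ : alternatingGroup (Fin n)}
    (hA : Disjoint A (A.map (τ : Equiv.Perm (Fin n)).toEmbedding))
    {a b : alternatingGroup (Fin n)} (ha : sp a ⊆ A) (hb : sp b ⊆ A) :
    (τ * a⁻¹ * τ⁻¹ * a⁻¹⁻¹) * b * (τ * a⁻¹ * τ⁻¹ * a⁻¹⁻¹)⁻¹ * b⁻¹ = a * b * a⁻¹ * b⁻¹ := by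
  have hd : ∀ c : alternatingGroup (Fin n), sp c ⊆ A →
      (τ * a⁻¹ * τ⁻¹) * c = c * (τ * a⁻¹ * τ⁻¹) := by
    intro c hc
    have h1 : (((τ * a⁻¹ * τ⁻¹ : alternatingGroup (Fin n)) : Equiv.Perm (Fin n))).support =
        (a : Equiv.Perm (Fin n)).support.map (τ : Equiv.Perm (Fin n)).toEmbedding := by
      rw [Subgroup.coe_mul, Subgroup.coe_mul, Subgroup.coe_inv, Subgroup.coe_inv,
        Equiv.Perm.support_conj, Equiv.Perm.support_inv]
    have h2 : Equiv.Perm.Disjoint
        ((τ * a⁻¹ * τ⁻¹ : alternatingGroup (Fin n)) : Equiv.Perm (Fin n))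
        (c : Equiv.Perm (Fin n)) := by
      rw [Equiv.Perm.disjoint_iff_disjoint_support, h1]
      exact (hA.symm).mono (map_subset_map.2 ha) hc
    apply Subtype.ext
    have h3 := h2.commute.eq
    simpa only [Subgroup.coe_mul] using h3
  have h1 := hd a ha
  have h2 := hd b hb
  set q := τ * a⁻¹ * τ⁻¹ with hq
  have e1 : (q * a⁻¹⁻¹) * b * (q * a⁻¹⁻¹)⁻¹ * b⁻¹ = q * (a * b * a⁻¹) * q⁻¹ * b⁻¹ := by group
  have e2 : q * (a * b * a⁻¹) = (a * b * a⁻¹) * q := by
    have h3 : q * a⁻¹ = a⁻¹ * q := by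
      have := congrArg (fun z => a⁻¹ * z * a⁻¹) h1
      have e3 : a⁻¹ * (q * a) * a⁻¹ = a⁻¹ * q := by group
      have e4 : a⁻¹ * (a * q) * a⁻¹ = q * a⁻¹ := by group
      rw [e3, e4] at this
      exact this.symm
    calc q * (a * b * a⁻¹) = (q * a) * b * a⁻¹ := by group
      _ = a * (q * b) * a⁻¹ := by rw [h1]; group
      _ = a * b * (q * a⁻¹) := by rw [h2]; group
      _ = (a * b * a⁻¹) * q := by rw [h3]; group
  rw [e1, e2]
  group

section
variable {f : alternatingGroup (Fin n) → ℝ}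

lemma fc (hm : ∀ x y, f (x * y) ≤ f x + f y)
    (hi : ∀ x, f x⁻¹ = f x) (hcj : ∀ x y, f (x * y * x⁻¹) = f y) (a b) :
    f (a * b * a⁻¹ * b⁻¹) ≤ 2 * f a := by
  have h1 := hm a (b * a⁻¹ * b⁻¹)
  rw [hcj, hi] at h1
  have e : a * (b * a⁻¹ * b⁻¹) = a * b * a⁻¹ * b⁻¹ := by group
  rw [e] at h1
  linarith

lemma f_of_isConj (hcj : ∀ x y, f (x * y * x⁻¹) = f y) {a b : alternatingGroup (Fin n)}
    (h : IsConj a b) : f b = f a := by
  obtain ⟨c, rfl⟩ := isConj_iff.1 h
  exact hcj c a

/-- commutators supported in a set moved off itself -/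
lemma comm_le (hm : ∀ x y, f (x * y) ≤ f x + f y)
    (hi : ∀ x, f x⁻¹ = f x) (hcj : ∀ x y, f (x * y * x⁻¹) = f y)
    {A : Finset (Fin n)} {τ : alternatingGroup (Fin n)}
    (hA : Disjoint A (A.map (τ : Equiv.Perm (Fin n)).toEmbedding))
    {a b : alternatingGroup (Fin n)} (ha : sp a ⊆ A) (hb : sp b ⊆ A) :
    f (a * b * a⁻¹ * b⁻¹) ≤ 4 * f τ := by
  rw [← double_comm hA ha hb]
  have h1 := fc hm hi hcj (τ * a⁻¹ * τ⁻¹ * a⁻¹⁻¹) b
  have h2 := fc hm hi hcj τ a⁻¹
  linarith

/-- the length lemma from the three facts on involutions -/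
theorem len_of
    (three : ∀ y : alternatingGroup (Fin n), ∃ a b c : alternatingGroup (Fin n),
      a * a = 1 ∧ b * b = 1 ∧ c * c = 1 ∧ y = a * b * c)
    (conj : ∀ a b : alternatingGroup (Fin n), a * a = 1 → b * b = 1 →
      (sp a).card = (sp b).card → IsConj a b)
    (comm : ∀ (S : Finset (Fin n)) (j : ℕ), 4 * j ≤ S.card →
      ∃ a b : alternatingGroup (Fin n), sp a ⊆ S ∧ sp b ⊆ S ∧
        (a * b * a⁻¹ * b⁻¹) * (a * b * a⁻¹ * b⁻¹) = 1 ∧
        (sp (a * b * a⁻¹ * b⁻¹)).card = 4 * j)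
    (four : ∀ a : alternatingGroup (Fin n), a * a = 1 → 4 ∣ (sp a).card)
    (split : ∀ v : alternatingGroup (Fin n), v * v = 1 → ∀ j, 4 * j ≤ (sp v).card →
      ∃ v1 v2 : alternatingGroup (Fin n), v1 * v1 = 1 ∧ v2 * v2 = 1 ∧ v = v1 * v2 ∧
        (sp v1).card = 4 * j ∧ (sp v2).card + 4 * j = (sp v).card)
    (h0 : ∀ x, 0 ≤ f x) (h1 : f 1 = 0) (hm : ∀ x y, f (x * y) ≤ f x + f y)
    (hi : ∀ x, f x⁻¹ = f x) (hcj : ∀ x y, f (x * y * x⁻¹) = f y) (hn : 40 ≤ n)
    {τ : alternatingGroup (Fin n)} (hτ : n ≤ 4 * (sp τ).card) (y) : f y ≤ 288 * f τ := by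
  obtain ⟨A, -, hA, hA3⟩ := exists_off (τ : Equiv.Perm (Fin n))
  have hA3' : (sp τ).card ≤ 3 * A.card := hA3
  have hf := h0 τ
  -- small involutions
  have small : ∀ v : alternatingGroup (Fin n), v * v = 1 → (sp v).card ≤ 4 * (A.card / 4) →
      f v ≤ 4 * f τ := by
    intro v hv hc
    obtain ⟨j, hj⟩ := four v hv
    obtain ⟨a, b, ha, hb, h2, h3⟩ := comm A j (by omega)
    have h4 := conj (a * b * a⁻¹ * b⁻¹) v h2 hv (by rw [h3, hj])
    rw [f_of_isConj hcj h4]
    exact comm_le hm hi hcj hA ha hb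
  -- all involutions
  have big : ∀ k : ℕ, ∀ v : alternatingGroup (Fin n), v * v = 1 →
      (sp v).card ≤ 4 * (A.card / 4) * k → f v ≤ k * (4 * f τ) := by
    intro k
    induction k with
    | zero =>
      intro v _ hc
      have h2 : (sp v).card = 0 := by simpa using hc
      rw [card_eq_zero, Equiv.Perm.support_eq_empty_iff] at h2
      have h3 : v = 1 := Subtype.ext h2
      rw [h3, h1]
      simp
    | succ k ih =>
      intro v hv hc
      push_cast
      by_cases hle : (sp v).card ≤ 4 * (A.card / 4)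
      · have h2 := small v hv hle
        have h3 : 0 ≤ (k : ℝ) * (4 * f τ) := by positivity
        linarith
      · obtain ⟨v1, v2, hv1, hv2, rfl, hc1, hc2⟩ := split v hv (A.card / 4) (by omega)
        have h2 := small v1 hv1 (by omega)
        have h3 := ih v2 hv2 (by
          have h4 : 4 * (A.card / 4) * (k + 1) = 4 * (A.card / 4) * k + 4 * (A.card / 4) := by
            ring
          omega)
        have h4 := hm v1 v2
        linarith
  have inv : ∀ v : alternatingGroup (Fin n), v * v = 1 → f v ≤ 96 * f τ := by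
    intro v hv
    have hvn : (sp v).card ≤ n := by
      have := card_le_univ (sp v)
      rwa [Fintype.card_fin] at this
    have h2 := big 24 v hv (by omega)
    push_cast at h2
    linarith
  obtain ⟨a, b, c, ha, hb, hc, rfl⟩ := three y
  have h2 := hm (a * b) c
  have h3 := hm a b
  have h4 := inv a ha
  have h5 := inv b hb
  have h6 := inv c hc
  linarith

theorem all_comm_of
    (three : ∀ y : alternatingGroup (Fin n), ∃ a b c : alternatingGroup (Fin n),
      a * a = 1 ∧ b * b = 1 ∧ c * c = 1 ∧ y = a * b * c)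
    (conj : ∀ a b : alternatingGroup (Fin n), a * a = 1 → b * b = 1 →
      (sp a).card = (sp b).card → IsConj a b)
    (comm : ∀ (S : Finset (Fin n)) (j : ℕ), 4 * j ≤ S.card →
      ∃ a b : alternatingGroup (Fin n), sp a ⊆ S ∧ sp b ⊆ S ∧
        (a * b * a⁻¹ * b⁻¹) * (a * b * a⁻¹ * b⁻¹) = 1 ∧
        (sp (a * b * a⁻¹ * b⁻¹)).card = 4 * j)
    (four : ∀ a : alternatingGroup (Fin n), a * a = 1 → 4 ∣ (sp a).card)
    (hm : ∀ x y, f (x * y) ≤ f x + f y) (hcj : ∀ x y, f (x * y * x⁻¹) = f y)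
    {B : ℝ} (hB : ∀ a b, f (a * b * a⁻¹ * b⁻¹) ≤ B) (y) : f y ≤ 3 * B := by
  have inv : ∀ v : alternatingGroup (Fin n), v * v = 1 → f v ≤ B := by
    intro v hv
    obtain ⟨j, hj⟩ := four v hv
    obtain ⟨a, b, -, -, h2, h3⟩ := comm univ j (by
      rw [← hj]
      exact card_le_card (subset_univ _))
    have h4 := conj (a * b * a⁻¹ * b⁻¹) v h2 hv (by rw [h3, hj])
    rw [f_of_isConj hcj h4]
    exact hB a b
  obtain ⟨a, b, c, ha, hb, hc, rfl⟩ := three y
  have h2 := hm (a * b) c
  have h3 := hm a b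
  have h4 := inv a ha
  have h5 := inv b hb
  have h6 := inv c hc
  linarith

end

end Vale.Agent.P318.R2.H924
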