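import Vale.Agent.P318.R2.H356.Chr

/-!
# Nonlinear characters of solvable groups are small off a proper subgroup
-/

namespace Vale.Agent.P318.R2.H924

open Finset Vale.Agent.P318.R2.H356
open scoped ComplexConjugate

section

variable {G : Type*} [Group G] [Fintype G] {a : G → ℂ}

/-- the elements of modulus one -/
def zz (ha : IsChr a) : Subgroup G where
  carrier := {g | ‖a g‖ = 1}
  one_mem' := by simp [ha.one]
  mul_mem' := by
    intro x y hx hy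
    have hx' : ‖a x‖ = 1 := hx
    have hy' : ‖a y‖ = 1 := hy
    change ‖a (x * y)‖ = 1
    rw [ha.mul_of_norm_one hy', norm_mul, hx', hy', one_mul]
  inv_mem' := by
    intro x hx
    have hx' : ‖a x‖ = 1 := hx
    change ‖a x⁻¹‖ = 1
    rw [ha.norm_inv, hx']

theorem mem_zz (ha : IsChr a) (g : G) : g ∈ zz ha ↔ ‖a g‖ = 1 := Iff.rfl

/-- the kernel -/
def kk (ha : IsChr a) : Subgroup G where
  carrier := {g | a g = 1}
  one_mem' := ha.one
  mul_mem' := by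
    intro x y hx hy
    have hx' : a x = 1 := hx
    have hy' : a y = 1 := hy
    change a (x * y) = 1
    rw [ha.mul_of_norm_one (by rw [hy', norm_one]), hx', hy', one_mul]
  inv_mem' := by
    intro x hx
    have hx' : a x = 1 := hx
    change a x⁻¹ = 1
    rw [ha.inv, hx', map_one]

theorem mem_kk (ha : IsChr a) (g : G) : g ∈ kk ha ↔ a g = 1 := Iff.rfl

theorem zz_conj (ha : IsChr a) {g : G} (hg : g ∈ zz ha) (x : G) : x * g * x⁻¹ ∈ zz ha := by
  rw [mem_zz, ha.cls]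
  exact hg

theorem kk_conj (ha : IsChr a) {g : G} (hg : g ∈ kk ha) (x : G) : x * g * x⁻¹ ∈ kk ha := by
  rw [mem_kk, ha.cls]
  exact hg

/-- for a subgroup `M` stable under conjugation and `N` normal: the `g` with `[g, N] ≤ M` -/
def cent (M N : Subgroup G) (hM : ∀ g ∈ M, ∀ x, x * g * x⁻¹ ∈ M) : Subgroup G where
  carrier := {g | ∀ n ∈ N, g * n * g⁻¹ * n⁻¹ ∈ M}
  one_mem' := by
    intro n _
    have : (1 : G) * n * 1⁻¹ * n⁻¹ = 1 := by group
    rw [this]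
    exact M.one_mem
  mul_mem' := by
    intro x y hx hy n hn
    have e : x * y * n * (x * y)⁻¹ * n⁻¹ =
        (x * (y * n * y⁻¹ * n⁻¹) * x⁻¹) * (x * n * x⁻¹ * n⁻¹) := by group
    rw [e]
    exact M.mul_mem (hM _ (hy n hn) x) (hx n hn)
  inv_mem' := by
    intro x hx n hn
    have e : x⁻¹ * n * x⁻¹⁻¹ * n⁻¹ = x⁻¹ * (x * n * x⁻¹ * n⁻¹)⁻¹ * x⁻¹⁻¹ := by group
    rw [e]
    exact hM _ (M.inv_mem (hx n hn)) x⁻¹

omit [Fintype G] in
theorem mem_cent {M N : Subgroup G} (hM : ∀ g ∈ M, ∀ x, x * g * x⁻¹ ∈ M) (g : G) :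
    g ∈ cent M N hM ↔ ∀ n ∈ N, g * n * g⁻¹ * n⁻¹ ∈ M := Iff.rfl

omit [Fintype G] in
theorem cent_conj {M N : Subgroup G} [N.Normal] (hM : ∀ g ∈ M, ∀ x, x * g * x⁻¹ ∈ M) (g : G)
    (hg : g ∈ cent M N hM) (x : G) : x * g * x⁻¹ ∈ cent M N hM := by
  intro n hn
  have hn' : x⁻¹ * n * x ∈ N := by
    have := Subgroup.Normal.conj_mem (inferInstanceAs N.Normal) n hn x⁻¹
    rwa [inv_inv] at this
  have e : x * g * x⁻¹ * n * (x * g * x⁻¹)⁻¹ * n⁻¹ =
      x * (g * (x⁻¹ * n * x) * g⁻¹ * (x⁻¹ * n * x)⁻¹) * x⁻¹ := by group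
  rw [e]
  exact hM _ (hg _ hn') x

/-- conjugation trick: `a g = a g * a z` for the commutator `z`, so `a g = 0` unless `a z = 1` -/
theorem zero_of (ha : IsChr a) {g n : G} (hz : ‖a (g⁻¹ * n * g * n⁻¹)‖ = 1)
    (h1 : a (g⁻¹ * n * g * n⁻¹) ≠ 1) : a g = 0 := by
  have e : n * g * n⁻¹ = g * (g⁻¹ * n * g * n⁻¹) := by group
  have h := ha.cls n g
  rw [e, ha.mul_of_norm_one hz] at h
  have h2 : a g * (a (g⁻¹ * n * g * n⁻¹) - 1) = 0 := by rw [mul_sub, mul_one, h, sub_self]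
  rcases mul_eq_zero.1 h2 with h3 | h3
  · exact h3
  · exact absurd (sub_eq_zero.1 h3) h1

/-- the inequality from a pointwise bound off a subgroup -/
theorem sum_le_of (ha : IsChr a) {c : G → ℝ} (hc : ∀ g, 0 ≤ c g) (H : Subgroup G)
    [DecidablePred (· ∉ H)] (hH : ∀ g, g ∉ H → 1 ≤ 4 * (1 - (a g).re)) :
    ∑ g with g ∉ H, c g ≤ 4 * ∑ g, c g * (1 - (a g).re) := by
  have hre : ∀ g, (a g).re ≤ 1 := fun g => (Complex.re_le_norm _).trans (ha.norm_le g)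
  rw [Finset.mul_sum]
  refine (Finset.sum_le_sum fun g hg => ?_).trans
    (Finset.sum_le_sum_of_subset_of_nonneg (Finset.filter_subset _ _) fun g _ _ => ?_)
  · have h1 := hH g (Finset.mem_filter.1 hg).2
    have h2 := hc g
    nlinarith
  · have h1 := hc g
    have h2 := hre g
    have : 0 ≤ c g * (1 - (a g).re) := mul_nonneg h1 (by linarith)
    linarith

open Classical in
/-- case (b) -/
theorem case_b (ha : IsChr a) {c : G → ℝ} (hc : ∀ g, 0 ≤ c g) (N : Subgroup G) [hNn : N.Normal]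
    (hN : ∃ n ∈ N, ‖a n‖ ≠ 1) (hNN : ∀ x ∈ N, ∀ y ∈ N, ‖a (x * y * x⁻¹ * y⁻¹)‖ = 1)
    (hC : ∀ n ∈ N, (∀ m ∈ N, a (n * m * n⁻¹ * m⁻¹) = 1) → ‖a n‖ = 1) :
    ∃ H : Subgroup G, H ≠ ⊤ ∧ ∑ g with g ∉ H, c g ≤ 4 * ∑ g, c g * (1 - (a g).re) := by
  -- `a` vanishes on `N \ Z`
  have hzero : ∀ n ∈ N, ‖a n‖ ≠ 1 → a n = 0 := by
    intro n hn hn1
    have hn2 : ‖a n⁻¹‖ ≠ 1 := by rwa [ha.norm_inv]
    have h1 : ¬ ∀ m ∈ N, a (n⁻¹ * m * n⁻¹⁻¹ * m⁻¹) = 1 := fun h => hn2 (hC _ (N.inv_mem hn) h)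
    push Not at h1
    obtain ⟨m, hm, hm1⟩ := h1
    have h2 := hNN n⁻¹ (N.inv_mem hn) m hm
    rw [inv_inv] at hm1 h2
    exact zero_of ha h2 hm1
  by_cases h1 : cent (zz ha) N (fun g hg x => zz_conj ha hg x) = ⊤
  · -- `[G, N] ≤ Z`
    have hall : ∀ g, ∀ n ∈ N, ‖a (g * n * g⁻¹ * n⁻¹)‖ = 1 := by
      intro g n hn
      have : g ∈ cent (zz ha) N (fun g hg x => zz_conj ha hg x) := by rw [h1]; trivial
      exact this n hn
    refine ⟨cent (kk ha) N (fun g hg x => kk_conj ha hg x), ?_, sum_le_of ha hc _ ?_⟩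
    · intro htop
      obtain ⟨n, hn, hn1⟩ := hN
      refine hn1 (hC n hn fun m hm => ?_)
      have : n ∈ cent (kk ha) N (fun g hg x => kk_conj ha hg x) := by rw [htop]; trivial
      exact this m hm
    · intro g hg
      have hg' : g⁻¹ ∉ cent (kk ha) N (fun g hg x => kk_conj ha hg x) := by
        intro h
        exact hg (by simpa using Subgroup.inv_mem _ h)
      rw [mem_cent] at hg'
      push Not at hg'
      obtain ⟨n, hn, hn1⟩ := hg'
      have h2 := hall g⁻¹ n hn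
      rw [inv_inv] at hn1 h2
      have h3 : a g = 0 := zero_of ha h2 (fun h => hn1 h)
      rw [h3, Complex.zero_re]
      norm_num
  · refine ⟨_, h1, sum_le_of ha hc _ ?_⟩
    intro g hg
    rw [mem_cent] at hg
    push Not at hg
    obtain ⟨n, hn, hn1⟩ := hg
    have hmem : g * n * g⁻¹ * n⁻¹ ∈ N :=
      N.mul_mem (hNn.conj_mem n hn g) (N.inv_mem hn)
    have h0 : a (g * n * g⁻¹ * n⁻¹) = 0 := hzero _ hmem hn1
    have e : g * n * g⁻¹ * n⁻¹ = g * (n * g⁻¹ * n⁻¹) := by group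
    rw [e] at h0
    have h4 := ha.le_of_comm h0
    have h5 := Complex.re_le_norm (a g)
    linarith

/-- the subgroup `C0` -/
def czero (ha : IsChr a) (N : Subgroup G) : Subgroup G :=
  N ⊓ cent (kk ha) N (fun _ hg x => kk_conj ha hg x)

instance czero_normal (ha : IsChr a) (N : Subgroup G) [hNn : N.Normal] : (czero ha N).Normal where
  conj_mem := by
    intro n hn g
    rw [czero, Subgroup.mem_inf] at hn ⊢
    exact ⟨hNn.conj_mem n hn.1 g, cent_conj _ n hn.2 g⟩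

open Classical in
/-- The main lemma for one normal subgroup, given the abelian case. -/
theorem nonlin_of (ha : IsChr a) {c : G → ℝ} (hc : ∀ g, 0 ≤ c g) (N : Subgroup G)
    [hNn : N.Normal] (hN : ∃ n ∈ N, ‖a n‖ ≠ 1)
    (hNN : ∀ x ∈ N, ∀ y ∈ N, ‖a (x * y * x⁻¹ * y⁻¹)‖ = 1)
    (hab : ∀ (A : Subgroup G) [A.Normal], (∀ x ∈ A, ∀ y ∈ A, a (x * y * x⁻¹ * y⁻¹) = 1) →
      (∃ x ∈ A, ‖a x‖ ≠ 1) →
      ∃ H : Subgroup G, H ≠ ⊤ ∧ ∑ g with g ∉ H, c g ≤ ∑ g, c g * (1 - ‖a g‖)) :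
    ∃ H : Subgroup G, H ≠ ⊤ ∧ ∑ g with g ∉ H, c g ≤ 4 * ∑ g, c g * (1 - (a g).re) := by
  by_cases hC : ∃ x ∈ czero ha N, ‖a x‖ ≠ 1
  · obtain ⟨H, hH, hle⟩ := hab (czero ha N) (fun x hx y hy => by
      rw [czero, Subgroup.mem_inf] at hx hy
      exact hx.2 y hy.1) hC
    refine ⟨H, hH, hle.trans ?_⟩
    rw [Finset.mul_sum]
    refine Finset.sum_le_sum fun g _ => ?_
    have h1 := hc g
    have h2 := Complex.re_le_norm (a g)
    have h3 := ha.norm_le g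
    have h4 : 0 ≤ c g * (1 - (a g).re) := mul_nonneg h1 (by linarith)
    have h5 : c g * (1 - ‖a g‖) ≤ c g * (1 - (a g).re) :=
      mul_le_mul_of_nonneg_left (by linarith) h1
    linarith
  · push Not at hC
    refine case_b ha hc N hN hNN fun n hn h => hC n ?_
    rw [czero, Subgroup.mem_inf]
    exact ⟨hn, fun m hm => h m hm⟩

open Classical in
/-- The main lemma for solvable groups, given the abelian case. -/
theorem nonlin_solv [Group.IsSolvable G] (ha : IsChr a) (hnl : ∃ g, ‖a g‖ ≠ 1) {c : G → ℝ}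
    (hc : ∀ g, 0 ≤ c g)
    (hab : ∀ (A : Subgroup G) [A.Normal], (∀ x ∈ A, ∀ y ∈ A, a (x * y * x⁻¹ * y⁻¹) = 1) →
      (∃ x ∈ A, ‖a x‖ ≠ 1) →
      ∃ H : Subgroup G, H ≠ ⊤ ∧ ∑ g with g ∉ H, c g ≤ ∑ g, c g * (1 - ‖a g‖)) :
    ∃ H : Subgroup G, H ≠ ⊤ ∧ ∑ g with g ∉ H, c g ≤ 4 * ∑ g, c g * (1 - (a g).re) := by
  have hex : ∃ k, ∀ n ∈ derivedSeries G k, ‖a n‖ = 1 := by
    obtain ⟨k, hk⟩ := Group.IsSolvable.solvable (G := G)
    refine ⟨k, fun n hn => ?_⟩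
    rw [hk, Subgroup.mem_bot] at hn
    rw [hn, ha.one, norm_one]
  have hk := Nat.find_spec hex
  have hmin := fun m => Nat.find_min hex (m := m)
  have hpos : Nat.find hex ≠ 0 := by
    intro h0
    rw [h0] at hk
    obtain ⟨g, hg⟩ := hnl
    exact hg (hk g (by rw [derivedSeries_zero]; trivial))
  obtain ⟨m, hm⟩ := Nat.exists_eq_succ_of_ne_zero hpos
  have h1 : ¬ ∀ n ∈ derivedSeries G m, ‖a n‖ = 1 := hmin m (by omega)
  push Not at h1
  rw [hm] at hk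
  refine nonlin_of ha hc (derivedSeries G m) h1 (fun x hx y hy => hk _ ?_) hab
  rw [derivedSeries_succ]
  exact Subgroup.commutator_mem_commutator hx hy

end

end Vale.Agent.P318.R2.H924
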