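import Vale.Agent.P318.R2.H356.Abel
import Vale.Agent.P318.R2.H924.Sub

/-!
# Nonlinear characters of solvable groups are small off a proper subgroup: final form
-/

namespace Vale.Agent.P318.R2.H924

open Finset Vale.Agent.P318.R2.H356

open Classical in
/-- A nonlinear normalised character of a finite solvable group: for every nonnegative weight
some proper subgroup carries all but a controlled part of the weight. -/
theorem nonlin {G : Type*} [Group G] [Fintype G] [Group.IsSolvable G] {a : G → ℂ}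
    (ha : IsChr a) (hnl : ∃ g, ‖a g‖ ≠ 1) {c : G → ℝ} (hc : ∀ g, 0 ≤ c g) :
    ∃ H : Subgroup G, H ≠ ⊤ ∧ ∑ g with g ∉ H, c g ≤ 4 * ∑ g, c g * (1 - (a g).re) :=
  nonlin_solv ha hnl hc fun A _ h1 h2 => case_abel ha hc A h1 h2

open Classical in
/-- The same for a normal subgroup `N` whose commutators have modulus one. -/
theorem nonlin_normal {G : Type*} [Group G] [Fintype G] {a : G → ℂ}
    (ha : IsChr a) (N : Subgroup G) [N.Normal] (hN : ∃ n ∈ N, ‖a n‖ ≠ 1)
    (hNN : ∀ x ∈ N, ∀ y ∈ N, ‖a (x * y * x⁻¹ * y⁻¹)‖ = 1) {c : G → ℝ} (hc : ∀ g, 0 ≤ c g) :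
    ∃ H : Subgroup G, H ≠ ⊤ ∧ ∑ g with g ∉ H, c g ≤ 4 * ∑ g, c g * (1 - (a g).re) :=
  nonlin_of ha hc N hN hNN fun A _ h1 h2 => case_abel ha hc A h1 h2

end Vale.Agent.P318.R2.H924
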