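import Mathlib

/-!
# Group structure above a normal subgroup

For a proper normal subgroup `Z` of a finite group there is a normal subgroup `N`, not inside `Z`,
which is either commutative modulo `Z`, or is modulo `Z` a product of the conjugates of a
nonabelian simple group.
-/

namespace Vale.Agent.P318.R2.H924

variable {G : Type*} [Group G]

lemma cm_iff (Z : Subgroup G) [Z.Normal] (a b : G) :
    a * b * a⁻¹ * b⁻¹ ∈ Z ↔
      (QuotientGroup.mk' Z a) * (QuotientGroup.mk' Z b) =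
        (QuotientGroup.mk' Z b) * (QuotientGroup.mk' Z a) := by
  rw [← QuotientGroup.eq_one_iff (N := Z)]
  have e : ((a * b * a⁻¹ * b⁻¹ : G) : G ⧸ Z) = (QuotientGroup.mk' Z a) * (QuotientGroup.mk' Z b) *
      (QuotientGroup.mk' Z a)⁻¹ * (QuotientGroup.mk' Z b)⁻¹ := rfl
  rw [e, mul_inv_eq_one, mul_inv_eq_iff_eq_mul]

lemma cm_symm {Z : Subgroup G} [Z.Normal] {a b : G} (h : a * b * a⁻¹ * b⁻¹ ∈ Z) :
    b * a * b⁻¹ * a⁻¹ ∈ Z := by
  rw [cm_iff] at h ⊢
  exact h.symm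

/-- commutators with a conjugate, moved to the other side -/
lemma cm_conj {Z : Subgroup G} [Z.Normal] {a b g : G}
    (h : (g⁻¹ * a * g) * b * (g⁻¹ * a * g)⁻¹ * b⁻¹ ∈ Z) :
    a * (g * b * g⁻¹) * a⁻¹ * (g * b * g⁻¹)⁻¹ ∈ Z := by
  have h1 := (inferInstance : Z.Normal).conj_mem _ h g
  have e : g * ((g⁻¹ * a * g) * b * (g⁻¹ * a * g)⁻¹ * b⁻¹) * g⁻¹ =
      a * (g * b * g⁻¹) * a⁻¹ * (g * b * g⁻¹)⁻¹ := by group
  rwa [e] at h1

/-- the elements commuting with `S` modulo `Z` -/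
def cen (Z : Subgroup G) [Z.Normal] (S : Set G) : Subgroup G :=
  (Subgroup.centralizer ((QuotientGroup.mk' Z) '' S)).comap (QuotientGroup.mk' Z)

lemma mem_cen {Z : Subgroup G} [Z.Normal] {S : Set G} {g : G} :
    g ∈ cen Z S ↔ ∀ s ∈ S, g * s * g⁻¹ * s⁻¹ ∈ Z := by
  unfold cen
  rw [Subgroup.mem_comap, Subgroup.mem_centralizer_iff]
  constructor
  · intro h s hs
    rw [cm_iff]
    exact (h _ ⟨s, hs, rfl⟩).symm
  · rintro h _ ⟨s, hs, rfl⟩
    have := h s hs
    rw [cm_iff] at this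
    exact this.symm

/-- the conjugate subgroup -/
def cj (g : G) (L : Subgroup G) : Subgroup G := L.map (MulAut.conj g).toMonoidHom

lemma mem_cj {g : G} {L : Subgroup G} {x : G} : x ∈ cj g L ↔ g⁻¹ * x * g ∈ L := by
  unfold cj
  rw [Subgroup.mem_map]
  constructor
  · rintro ⟨y, hy, rfl⟩
    have e : g⁻¹ * ((MulAut.conj g).toMonoidHom y) * g = y := by
      change g⁻¹ * (g * y * g⁻¹) * g = y
      group
    rwa [e]
  · intro h
    refine ⟨_, h, ?_⟩
    change g * (g⁻¹ * x * g) * g⁻¹ = x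
    group

lemma card_cj (g : G) (L : Subgroup G) : Nat.card (cj g L) = Nat.card L := by
  unfold cj
  exact (Nat.card_congr (L.equivMapOfInjective _ (MulAut.conj g).injective).toEquiv).symm

/-- the conjugates of a subgroup generate -/
lemma gen {Z N L : Subgroup G} [Z.Normal] (hN : N.Normal)
    (hmin : ∀ M : Subgroup G, M.Normal → M ≤ N → ¬ M ≤ Z → M = N)
    (hLN : L ≤ N) (hLZ : ¬ L ≤ Z) {K : Subgroup G}
    (hK : ∀ g, ∀ x ∈ L, g * x * g⁻¹ ∈ K) : N ≤ K := by
  have h1 : Subgroup.normalClosure (L : Set G) = N := by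
    refine hmin _ Subgroup.normalClosure_normal ?_ ?_
    · exact Subgroup.normalClosure_le_normal hLN
    · intro h
      exact hLZ fun x hx => h (Subgroup.subset_normalClosure hx)
  rw [← h1]
  unfold Subgroup.normalClosure
  rw [Subgroup.closure_le]
  intro x hx
  rw [Group.mem_conjugatesOfSet_iff] at hx
  obtain ⟨a, ha, hax⟩ := hx
  obtain ⟨g, rfl⟩ := isConj_iff.1 hax
  exact hK g a ha

theorem structure_exists [Finite G] (Z : Subgroup G) [Z.Normal] (hZ : Z ≠ ⊤) :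
    ∃ N : Subgroup G, N.Normal ∧ ¬ N ≤ Z ∧
      ((∀ x ∈ N, ∀ y ∈ N, x * y * x⁻¹ * y⁻¹ ∈ Z) ∨
        ((∃ x ∈ N, ∃ y ∈ N, x * y * x⁻¹ * y⁻¹ ∉ Z) ∧
          ∃ L : Subgroup G, N ⊓ Z ≤ L ∧ L ≤ N ∧ ¬ L ≤ Z ∧
            (∀ n ∈ N, ∀ x ∈ L, n * x * n⁻¹ ∈ L) ∧
            (∃ x ∈ L, ∃ y ∈ L, x * y * x⁻¹ * y⁻¹ ∉ Z) ∧
            (∀ R : Subgroup G, N ⊓ Z ≤ R → R ≤ L → (∀ x ∈ L, ∀ r ∈ R, x * r * x⁻¹ ∈ R) →
              R = N ⊓ Z ∨ R = L) ∧
            (∀ n ∈ N, ∃ l ∈ L, ∃ c ∈ N, n = l * c ∧ ∀ h ∈ L, c * h * c⁻¹ * h⁻¹ ∈ Z) ∧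
            (∀ m ∈ N, m ∉ Z → ∃ h : G, ∃ y ∈ L,
              (h * m * h⁻¹) * y * (h * m * h⁻¹)⁻¹ * y⁻¹ ∈ L ∧
              (h * m * h⁻¹) * y * (h * m * h⁻¹)⁻¹ * y⁻¹ ∉ Z))) := by
  classical
  -- a minimal normal subgroup outside `Z`
  obtain ⟨N, ⟨hN, hNZ⟩, hNmin⟩ := Set.exists_min_image {N : Subgroup G | N.Normal ∧ ¬ N ≤ Z}
    (fun N => Nat.card N) (Set.toFinite _)
    ⟨⊤, inferInstance, fun h => hZ (top_le_iff.1 h)⟩
  have hmin : ∀ M : Subgroup G, M.Normal → M ≤ N → ¬ M ≤ Z → M = N := by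
    intro M h1 h2 h3
    exact Subgroup.eq_of_le_of_card_ge h2 (hNmin M ⟨h1, h3⟩)
  refine ⟨N, hN, hNZ, ?_⟩
  by_cases hab : ∀ x ∈ N, ∀ y ∈ N, x * y * x⁻¹ * y⁻¹ ∈ Z
  · exact Or.inl hab
  right
  have hab' : ∃ x ∈ N, ∃ y ∈ N, x * y * x⁻¹ * y⁻¹ ∉ Z := by
    by_contra hcon
    apply hab
    intro x hx y hy
    by_contra h
    exact hcon ⟨x, hx, y, hy, h⟩
  refine ⟨hab', ?_⟩
  -- a minimal subgroup normalised by `N`
  obtain ⟨L, ⟨hL0, hLN, hLZ, hLn⟩, hLmin⟩ := Set.exists_min_image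
    {L : Subgroup G | N ⊓ Z ≤ L ∧ L ≤ N ∧ ¬ L ≤ Z ∧ ∀ n ∈ N, ∀ x ∈ L, n * x * n⁻¹ ∈ L}
    (fun L => Nat.card L) (Set.toFinite _)
    ⟨N, inf_le_left, le_rfl, hNZ, fun n hn x hx => N.mul_mem (N.mul_mem hn hx) (N.inv_mem hn)⟩
  have hg : ∀ {K : Subgroup G}, (∀ g, ∀ x ∈ L, g * x * g⁻¹ ∈ K) → N ≤ K :=
    fun hK => gen hN hmin hLN hLZ hK
  -- two conjugates coincide or commute
  have dich : ∀ g : G, (∀ x ∈ L, g * x * g⁻¹ ∈ L) ∨
      ∀ x ∈ L, ∀ y ∈ L, (g * y * g⁻¹) * x * (g * y * g⁻¹)⁻¹ * x⁻¹ ∈ Z := by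
    intro g
    have hcN : cj g L ≤ N := by
      intro x hx
      rw [mem_cj] at hx
      have := hN.conj_mem _ (hLN hx) g
      have e : g * (g⁻¹ * x * g) * g⁻¹ = x := by group
      rwa [e] at this
    have hcn : ∀ n ∈ N, ∀ x ∈ cj g L, n * x * n⁻¹ ∈ cj g L := by
      intro n hn x hx
      rw [mem_cj] at hx ⊢
      have h1 : g⁻¹ * n * g ∈ N := by
        have := hN.conj_mem n hn g⁻¹
        rwa [inv_inv] at this
      have h2 := hLn _ h1 _ hx
      have e : (g⁻¹ * n * g) * (g⁻¹ * x * g) * (g⁻¹ * n * g)⁻¹ = g⁻¹ * (n * x * n⁻¹) * g := by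
        group
      rwa [e] at h2
    by_cases h : L ⊓ cj g L ≤ Z
    · right
      intro x hx y hy
      apply h
      have hy' : g * y * g⁻¹ ∈ cj g L := by
        rw [mem_cj]
        have e : g⁻¹ * (g * y * g⁻¹) * g = y := by group
        rwa [e]
      constructor
      · exact L.mul_mem (hLn _ (hcN hy') x hx) (L.inv_mem hx)
      · have h1 := hcn x (hLN hx) _ ((cj g L).inv_mem hy')
        have h2 := (cj g L).mul_mem hy' h1
        have e : g * y * g⁻¹ * (x * (g * y * g⁻¹)⁻¹ * x⁻¹) =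
            (g * y * g⁻¹) * x * (g * y * g⁻¹)⁻¹ * x⁻¹ := by group
        rwa [e] at h2
    · left
      have h0 : N ⊓ Z ≤ cj g L := by
        intro x hx
        rw [mem_cj]
        apply hL0
        have h1 := (inferInstance : Z.Normal).conj_mem x hx.2 g⁻¹
        have h2 := hN.conj_mem x hx.1 g⁻¹
        rw [inv_inv] at h1 h2
        exact ⟨h2, h1⟩
      have hc := hLmin (L ⊓ cj g L) ⟨le_inf hL0 h0, inf_le_left.trans hLN, h, fun n hn x hx =>
        ⟨hLn n hn x hx.1, hcn n hn x hx.2⟩⟩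
      have e1 : L ⊓ cj g L = L := Subgroup.eq_of_le_of_card_ge inf_le_left hc
      have e2 : L ≤ cj g L := inf_eq_left.1 e1
      have e3 : L = cj g L := Subgroup.eq_of_le_of_card_ge e2 (card_cj g L).le
      intro x hx
      rw [e3, mem_cj]
      have e : g⁻¹ * (g * x * g⁻¹) * g = x := by group
      rwa [e]
  -- if `N` commutes with `L` then `N` is commutative
  have gen2 : ¬ ∀ n ∈ N, ∀ x ∈ L, n * x * n⁻¹ * x⁻¹ ∈ Z := by
    intro h
    apply hab
    have h1 : N ≤ cen Z (N : Set G) := by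
      apply hg
      intro g x hx
      rw [mem_cen]
      intro n hn
      apply cm_symm
      apply cm_conj
      apply h _ _ x hx
      have := hN.conj_mem n hn g⁻¹
      rwa [inv_inv] at this
    intro x hx y hy
    exact mem_cen.1 (h1 hx) y hy
  refine ⟨L, hL0, hLN, hLZ, hLn, ?_, ?_, ?_, ?_⟩
  · -- `L` is not commutative
    by_contra hcon
    have hcon' : ∀ x ∈ L, ∀ y ∈ L, x * y * x⁻¹ * y⁻¹ ∈ Z := by
      intro x hx y hy
      by_contra h
      exact hcon ⟨x, hx, y, hy, h⟩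
    apply gen2
    have h1 : N ≤ cen Z (L : Set G) := by
      apply hg
      intro g x hx
      rw [mem_cen]
      intro y hy
      rcases dich g with h | h
      · exact hcon' _ (h x hx) y hy
      · exact h y hy x hx
    intro n hn x hx
    exact mem_cen.1 (h1 hn) x hx
  · -- normal subgroups of `L`
    intro R hR0 hRL hR
    have h1 : N ≤ {
        carrier := {g | ∀ r ∈ R, g * r * g⁻¹ ∈ R ∧ g⁻¹ * r * g ∈ R}
        mul_mem' := by
          intro a b ha hb r hr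
          have h2 := (ha _ (hb r hr).1).1
          have h3 := (hb _ (ha r hr).2).2
          have e1 : a * (b * r * b⁻¹) * a⁻¹ = a * b * r * (a * b)⁻¹ := by group
          have e2 : b⁻¹ * (a⁻¹ * r * a) * b = (a * b)⁻¹ * r * (a * b) := by group
          rw [e1] at h2
          rw [e2] at h3
          exact ⟨h2, h3⟩
        one_mem' := by
          intro r hr
          simpa using hr
        inv_mem' := by
          intro a ha r hr
          rw [inv_inv]
          exact ⟨(ha r hr).2, (ha r hr).1⟩ : Subgroup G } := by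
      apply hg
      intro g x hx r hr
      rcases dich g with h | h
      · have h2 := hR _ (h x hx) r hr
        have h3 := hR _ (L.inv_mem (h x hx)) r hr
        rw [inv_inv] at h3
        exact ⟨h2, h3⟩
      · have key : ∀ z ∈ L, (g * z * g⁻¹) * r * (g * z * g⁻¹)⁻¹ ∈ R := by
          intro z hz
          have h2 := h r (hRL hr) z hz
          have h3 : (g * z * g⁻¹) * r * (g * z * g⁻¹)⁻¹ * r⁻¹ ∈ N := by
            have h4 := hN.conj_mem _ (hLN hz) g
            exact N.mul_mem (N.mul_mem (N.mul_mem h4 (hLN (hRL hr))) (N.inv_mem h4))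
              (N.inv_mem (hLN (hRL hr)))
          have h5 := R.mul_mem (hR0 ⟨h3, h2⟩) hr
          rwa [inv_mul_cancel_right] at h5
        have h2 := key x hx
        have h3 := key x⁻¹ (L.inv_mem hx)
        have e : (g * x⁻¹ * g⁻¹) * r * (g * x⁻¹ * g⁻¹)⁻¹ =
            (g * x * g⁻¹)⁻¹ * r * (g * x * g⁻¹) := by group
        rw [e] at h3
        exact ⟨h2, h3⟩
    by_cases hRZ : R ≤ Z
    · left
      exact le_antisymm (le_inf (hRL.trans hLN) hRZ) hR0
    · right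
      exact Subgroup.eq_of_le_of_card_ge hRL (hLmin R ⟨hR0, hRL.trans hLN, hRZ, fun n hn x hx =>
        (h1 hn x hx).1⟩)
  · -- `N` is the product of `L` and the centraliser
    have h1 : N ≤ {
        carrier := {n | ∃ l ∈ L, ∃ c ∈ N, n = l * c ∧ ∀ h ∈ L, c * h * c⁻¹ * h⁻¹ ∈ Z}
        mul_mem' := by
          rintro a b ⟨l, hl, c, hc, rfl, h1⟩ ⟨l', hl', c', hc', rfl, h1'⟩
          refine ⟨l * (c * l' * c⁻¹), L.mul_mem hl (hLn c hc l' hl'), c * c',
            N.mul_mem hc hc', by group, ?_⟩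
          have h2 : c * c' ∈ cen Z (L : Set G) :=
            (cen Z (L : Set G)).mul_mem (mem_cen.2 h1) (mem_cen.2 h1')
          exact mem_cen.1 h2
        one_mem' := ⟨1, L.one_mem, 1, N.one_mem, by simp, fun h _ => by simp⟩
        inv_mem' := by
          rintro a ⟨l, hl, c, hc, rfl, h1⟩
          refine ⟨c⁻¹ * l⁻¹ * c⁻¹⁻¹, hLn _ (N.inv_mem hc) _ (L.inv_mem hl), c⁻¹,
            N.inv_mem hc, by group, ?_⟩
          have h2 : c⁻¹ ∈ cen Z (L : Set G) := (cen Z (L : Set G)).inv_mem (mem_cen.2 h1)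
          exact mem_cen.1 h2 : Subgroup G } := by
      apply hg
      intro g x hx
      rcases dich g with h | h
      · exact ⟨g * x * g⁻¹, h x hx, 1, N.one_mem, by simp, fun h _ => by simp⟩
      · exact ⟨1, L.one_mem, g * x * g⁻¹, hN.conj_mem _ (hLN hx) g, by simp,
          fun y hy => h y hy x hx⟩
    intro n hn
    exact h1 hn
  · -- every element of `N` outside `Z` moves a conjugate of `L`
    intro m hm hmZ
    by_contra hcon
    have hcon' : ∀ h : G, ∀ y ∈ L, (h * m * h⁻¹) * y * (h * m * h⁻¹)⁻¹ * y⁻¹ ∈ Z := by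
      intro h y hy
      by_contra h1
      exact hcon ⟨h, y, hy, L.mul_mem (hLn _ (hN.conj_mem m hm h) y hy) (L.inv_mem hy), h1⟩
    have h1 : N ≤ cen Z ({m} : Set G) := by
      apply hg
      intro g x hx
      rw [mem_cen]
      intro s hs
      rw [Set.mem_singleton_iff] at hs
      subst hs
      apply cm_symm
      apply cm_conj
      have := hcon' g⁻¹ x hx
      rwa [inv_inv] at this
    have h2 : (N ⊓ cen Z (N : Set G)).Normal := by
      constructor
      intro n hn g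
      refine ⟨hN.conj_mem n hn.1 g, mem_cen.2 ?_⟩
      intro s hs
      apply cm_symm
      apply cm_conj
      apply cm_symm
      have h3 : g⁻¹ * s * g ∈ N := by
        have := hN.conj_mem s hs g⁻¹
        rwa [inv_inv] at this
      exact mem_cen.1 hn.2 _ h3
    have h3 : ¬ N ⊓ cen Z (N : Set G) ≤ Z := by
      intro h4
      apply hmZ
      apply h4
      refine ⟨hm, mem_cen.2 ?_⟩
      intro s hs
      exact cm_symm (mem_cen.1 (h1 hs) m rfl)
    have h4 := hmin _ h2 inf_le_left h3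
    apply hab
    intro x hx y hy
    rw [← h4] at hx
    exact mem_cen.1 hx.2 y hy

end Vale.Agent.P318.R2.H924
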