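import Vale.Agent.P318.R2.H924.GapTwo

/-!
# Every finite simple group has a gap: the crude bound
-/

namespace Vale.Agent.P318.R2.H924

open Vale.Agent.P318.R2.H402

variable {T : Type*} [Group T]

/-- balls which stop growing are everything -/
lemma ball_stop [IsSimpleGroup T] {x : T} (hx : x ≠ 1) {k : ℕ}
    (h : ∀ y, Pr (k + 1) x y → Pr k x y) (y : T) : Pr k x y := by
  set H : Subgroup T := {
      carrier := {y | ∀ z, Pr k x z → Pr k x (z * y) ∧ Pr k x (z * y⁻¹)}
      mul_mem' := by
        intro a b ha hb z hz
        refine ⟨?_, ?_⟩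
        · rw [← mul_assoc]
          exact (hb _ (ha z hz).1).1
        · rw [mul_inv_rev, ← mul_assoc]
          exact (ha _ (hb z hz).2).2
      one_mem' := by
        intro z hz
        simpa using hz
      inv_mem' := by
        intro a ha z hz
        rw [inv_inv]
        exact ⟨(ha z hz).2, (ha z hz).1⟩ } with hH
  have hc : ∀ a, IsConj x a → a ∈ H := by
    intro a ha z hz
    refine ⟨h _ (hz.mul ((Pr.self x).isConj ha)), h _ (hz.mul ((Pr.inv_self x).isConj ?_))⟩
    obtain ⟨c, rfl⟩ := isConj_iff.1 ha
    exact isConj_iff.2 ⟨c, by group⟩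
  have hle : Subgroup.normalClosure {x} ≤ H := by
    unfold Subgroup.normalClosure
    rw [Subgroup.closure_le]
    intro a ha
    rw [Group.mem_conjugatesOfSet_iff] at ha
    obtain ⟨b, hb, hba⟩ := ha
    rw [Set.mem_singleton_iff] at hb
    subst hb
    exact hc a hba
  have htop : Subgroup.normalClosure {x} = (⊤ : Subgroup T) := by
    rcases IsSimpleGroup.eq_bot_or_eq_top_of_normal (Subgroup.normalClosure {x})
      Subgroup.normalClosure_normal with h1 | h1
    · exfalso
      apply hx
      have h2 : x ∈ Subgroup.normalClosure {x} :=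
        Subgroup.subset_normalClosure (Set.mem_singleton x)
      rw [h1] at h2
      exact Subgroup.mem_bot.1 h2
    · exact h1
  have h3 : y ∈ H := hle (htop ▸ Subgroup.mem_top y)
  have h4 := (h3 1 (Pr.one k x)).1
  rwa [one_mul] at h4

/-- In a finite simple group every element is a product of at most `Nat.card T` conjugates of
each `x` other than `1` and of its inverse. -/
theorem diam_card [Finite T] [IsSimpleGroup T] {x : T} (hx : x ≠ 1) (y : T) :
    Pr (Nat.card T) x y := by
  have key : ∀ k : ℕ, (∀ y, Pr k x y) ∨ k + 1 ≤ Set.ncard {y | Pr k x y} := by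
    intro k
    induction k with
    | zero =>
      right
      rw [Nat.succ_le_iff, Set.ncard_pos]
      exact ⟨1, Pr.one 0 x⟩
    | succ k ih =>
      by_cases h : ∀ y, Pr (k + 1) x y → Pr k x y
      · left
        intro y
        exact (ball_stop hx h y).mono (Nat.le_succ k)
      · right
        have h1 : k + 1 ≤ Set.ncard {y | Pr k x y} := by
          rcases ih with ih | ih
          · exact absurd (fun y _ => ih y) h
          · exact ih
        have h2 : {y | Pr k x y} ⊂ {y | Pr (k + 1) x y} := by
          refine ⟨fun y hy => Pr.mono hy (Nat.le_succ k), fun h3 => h fun y hy => h3 hy⟩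
        have h3 := Set.ncard_lt_ncard h2
        omega
  rcases key (Nat.card T) with h | h
  · exact h y
  · exfalso
    have h1 : Set.ncard {y | Pr (Nat.card T) x y} ≤ Nat.card T := by
      rw [← Set.ncard_univ]
      exact Set.ncard_le_ncard (Set.subset_univ _)
    omega

/-- every finite simple group has a gap -/
theorem gap_crude [Finite T] [IsSimpleGroup T] : R2.H678.Gap T (1 / (Nat.card T : ℝ) ^ 2) :=
  gap_of_diameter fun _ y hx => diam_card hx y

/-- the gap of a finite simple group of order at most `m` -/
theorem gap_crude_le [Finite T] [IsSimpleGroup T] {m : ℕ} (hm : Nat.card T ≤ m) :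
    R2.H678.Gap T (1 / (m : ℝ) ^ 2) :=
  gap_of_diameter fun _ y hx => (diam_card hx y).mono hm

/-- the order of the projective special linear group -/
theorem card_psl_le {ι F : Type*} [Fintype ι] [DecidableEq ι] [Field F] [Finite F] :
    Nat.card (Matrix.ProjectiveSpecialLinearGroup ι F) ≤
      Nat.card F ^ (Fintype.card ι * Fintype.card ι) := by
  have h1 : Nat.card (Matrix.SpecialLinearGroup ι F) ≤ Nat.card (ι → ι → F) :=
    Nat.card_le_card_of_injective (fun g => fun i j => (g : Matrix ι ι F) i j) fun a b hab => by
      apply Subtype.ext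
      ext i j
      exact congrFun (congrFun hab i) j
  have h2 : Nat.card (ι → ι → F) = Nat.card F ^ (Fintype.card ι * Fintype.card ι) := by
    rw [Nat.card_fun, Nat.card_fun, Nat.card_eq_fintype_card (α := ι), ← pow_mul]
  have h3 : Nat.card (Matrix.ProjectiveSpecialLinearGroup ι F) ≤
      Nat.card (Matrix.SpecialLinearGroup ι F) := by
    have : Finite (Matrix.SpecialLinearGroup ι F) := inferInstance
    exact Nat.card_le_card_of_surjective _ (QuotientGroup.mk_surjective
      (s := Subgroup.center (Matrix.SpecialLinearGroup ι F)))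
  exact h3.trans (h1.trans h2.le)

/-- `PSL_2` over a field with at most five elements, when simple, has an absolute gap. -/
theorem gap_psl_two_small {F : Type*} [Field F] [Finite F] (hF : Nat.card F ≤ 5)
    [IsSimpleGroup (Matrix.ProjectiveSpecialLinearGroup (Fin 2) F)] :
    R2.H678.Gap (Matrix.ProjectiveSpecialLinearGroup (Fin 2) F) (1 / 625 ^ 2) := by
  have h1 : Nat.card (Matrix.ProjectiveSpecialLinearGroup (Fin 2) F) ≤ 625 := by
    refine card_psl_le.trans ?_
    rw [Fintype.card_fin]
    calc Nat.card F ^ (2 * 2) ≤ 5 ^ (2 * 2) := Nat.pow_le_pow_left hF _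
      _ = 625 := by norm_num
  have h2 := gap_crude_le h1
  exact_mod_cast h2

end Vale.Agent.P318.R2.H924
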