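import Vale.Agent.P318.R2.H924.GapDiam

/-!
# Two subgroups which generate: a gap of the character ratios
-/

namespace Vale.Agent.P318.R2.H924

open Matrix Finset

variable {d : ℕ} {T : Type*} [Group T]

/-- the length attached to a representation -/
lemma exists_len [Fintype T] (ρ : T →* Matrix (Fin d) (Fin d) ℂ) :
    ∃ f : T → ℝ, (∀ a, 0 ≤ f a) ∧ (∀ a, f a ^ 2 = 2 * d - 2 * (trace (ρ a)).re) ∧
      (∀ a b, f (a * b) ≤ f a + f b) ∧ (∀ a, f a⁻¹ = f a) ∧ ∀ a b, IsConj a b → f b = f a := by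
  obtain ⟨S, S', hS, hS', hU⟩ := exists_unitary ρ
  set V : T → Matrix (Fin d) (Fin d) ℂ := fun x => S * ρ x * S' with hV
  have hVm : ∀ a b, V (a * b) = V a * V b := by
    intro a b
    simp only [hV, map_mul]
    calc S * (ρ a * ρ b) * S' = S * ρ a * 1 * (ρ b * S') := by
          rw [Matrix.mul_one]; simp only [Matrix.mul_assoc]
      _ = S * ρ a * S' * (S * ρ b * S') := by
          rw [← hS']; simp only [Matrix.mul_assoc]
  have hV1 : V 1 = 1 := by
    simp only [hV, map_one, Matrix.mul_one, hS]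
  have htr : ∀ a, trace (V a) = trace (ρ a) := by
    intro a
    simp only [hV]
    rw [Matrix.trace_mul_comm, ← Matrix.mul_assoc, hS', Matrix.one_mul]
  have hf2 : ∀ a, fn (V a - 1) ^ 2 = 2 * d - 2 * (trace (ρ a)).re := by
    intro a
    rw [← htr a]
    exact fn_sub_one (hU a)
  refine ⟨fun a => fn (V a - 1), fun a => fn_nonneg _, hf2, ?_, ?_, ?_⟩
  · intro a b
    have e : V (a * b) - 1 = (V a - 1) + V a * (V b - 1) := by
      rw [hVm, Matrix.mul_sub, Matrix.mul_one]
      abel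
    calc fn (V (a * b) - 1) = fn ((V a - 1) + V a * (V b - 1)) := by rw [e]
      _ ≤ fn (V a - 1) + fn (V a * (V b - 1)) := fn_add _ _
      _ = fn (V a - 1) + fn (V b - 1) := by rw [fn_unitary_mul (hU a)]
  · intro a
    have e : V a * (V a⁻¹ - 1) = -(V a - 1) := by
      rw [Matrix.mul_sub, ← hVm, mul_inv_cancel, hV1, Matrix.mul_one]
      abel
    calc fn (V a⁻¹ - 1) = fn (V a * (V a⁻¹ - 1)) := (fn_unitary_mul (hU a) _).symm
      _ = fn (V a - 1) := by rw [e, fn_neg]
  · intro a b hab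
    obtain ⟨c, rfl⟩ := isConj_iff.1 hab
    apply fn_eq_of_sq
    rw [hf2, hf2, map_mul, Matrix.trace_mul_comm, ← map_mul]
    have e : c⁻¹ * (c * a) = a := by group
    rw [e]

/-- a length on a word -/
lemma len_word {f : T → ℝ} (h0 : ∀ a, 0 ≤ f a) (h1 : f 1 = 0)
    (hm : ∀ a b, f (a * b) ≤ f a + f b) (hi : ∀ a, f a⁻¹ = f a)
    (hc : ∀ a b, IsConj a b → f b = f a) {x : T} {m : ℕ} (w : List T) (hw : w.length ≤ m)
    (hwc : ∀ u ∈ w, IsConj x u ∨ IsConj x⁻¹ u) : f w.prod ≤ m * f x := by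
  have key : ∀ (w : List T), (∀ u ∈ w, f u ≤ f x) → f w.prod ≤ w.length * f x := by
    intro w
    induction w with
    | nil => intro _; simp [h1]
    | cons b w ih =>
      intro hw
      have h2 := ih fun u hu => hw u (List.mem_cons_of_mem _ hu)
      have h3 := hw b List.mem_cons_self
      have h4 := hm b w.prod
      rw [List.prod_cons, List.length_cons]
      push_cast
      linarith
  refine (key w fun u hu => ?_).trans (mul_le_mul_of_nonneg_right ?_ (h0 x))
  · rcases hwc u hu with h | h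
    · exact (hc _ _ h).le
    · exact ((hc _ _ h).trans (hi x)).le
  · exact_mod_cast hw

/-- the vectors fixed by a subgroup -/
def fixed (ρ : T →* Matrix (Fin d) (Fin d) ℂ) (A : Subgroup T) : Submodule ℂ (Fin d → ℂ) where
  carrier := {v | ∀ a ∈ A, (ρ a).mulVec v = v}
  add_mem' := by
    intro v w hv hw a ha
    rw [mulVec_add, hv a ha, hw a ha]
  zero_mem' := by
    intro a _
    rw [mulVec_zero]
  smul_mem' := by
    intro c v hv a ha
    rw [mulVec_smul, hv a ha]

/-- the trace sum over a subgroup is the dimension of its fixed space -/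
lemma sum_trace [Fintype T] (ρ : T →* Matrix (Fin d) (Fin d) ℂ) (A : Subgroup T) [Fintype A] :
    ∑ a : A, trace (ρ a) = (Fintype.card A : ℂ) * Module.finrank ℂ (fixed ρ A) := by
  classical
  have hc : (Fintype.card A : ℂ) ≠ 0 := Nat.cast_ne_zero.2 Fintype.card_ne_zero
  set P : Matrix (Fin d) (Fin d) ℂ := (Fintype.card A : ℂ)⁻¹ • ∑ a : A, ρ a with hP
  have hPA : ∀ a ∈ A, ρ a * P = P := by
    intro a ha
    rw [hP, Matrix.mul_smul, Matrix.mul_sum]
    congr 1
    refine Fintype.sum_bijective (fun x => (⟨a, ha⟩ : A) * x) (Group.mulLeft_bijective _) _ _ ?_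
    intro x
    rw [← map_mul]
    rfl
  have hproj : LinearMap.IsProj (fixed ρ A) (Matrix.toLin' P) := by
    refine ⟨fun v => ?_, fun v hv => ?_⟩
    · intro a ha
      rw [toLin'_apply, mulVec_mulVec, hPA a ha]
    · rw [toLin'_apply, hP, smul_mulVec, sum_mulVec]
      have e : ∑ a : A, (ρ a).mulVec v = (Fintype.card A : ℂ) • v := by
        rw [sum_congr rfl fun (a : A) _ => hv a a.2, sum_const, card_univ, Nat.cast_smul_eq_nsmul]
      rw [e, smul_smul, inv_mul_cancel₀ hc, one_smul]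
  have h2 : trace P = Module.finrank ℂ (fixed ρ A) := by
    rw [← hproj.trace]
    simp
  rw [← h2, hP, trace_smul, smul_eq_mul, ← mul_assoc, mul_inv_cancel₀ hc, one_mul, trace_sum]

/-- the vectors fixed by two subgroups which generate are invariant -/
lemma fixed_inf {ρ : T →* Matrix (Fin d) (Fin d) ℂ} {A B : Subgroup T} (hAB : A ⊔ B = ⊤)
    {v : Fin d → ℂ} (hA : v ∈ fixed ρ A) (hB : v ∈ fixed ρ B) (x : T) : (ρ x).mulVec v = v := by
  have h : (⊤ : Subgroup T) ≤ {
      carrier := {x | (ρ x).mulVec v = v}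
      mul_mem' := by
        intro a b ha hb
        change (ρ (a * b)).mulVec v = v
        rw [map_mul, ← mulVec_mulVec, hb, ha]
      one_mem' := by
        change (ρ 1).mulVec v = v
        rw [map_one, one_mulVec]
      inv_mem' := by
        intro a ha
        change (ρ a⁻¹).mulVec v = v
        have h1 : (ρ a⁻¹).mulVec ((ρ a).mulVec v) = v := by
          rw [mulVec_mulVec, ← map_mul, inv_mul_cancel, map_one, one_mulVec]
        rwa [ha] at h1 : Subgroup T } := by
    rw [← hAB, sup_le_iff]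
    exact ⟨fun a ha => hA a ha, fun a ha => hB a ha⟩
  exact h (Subgroup.mem_top x)

/-- Two subgroups which generate, all of whose elements are products of at most `m` conjugates of
each `x` other than `1` and of its inverse. -/
theorem gap_of_subgroups [Finite T] {m : ℕ} (hm : 0 < m) (A B : Subgroup T) (hAB : A ⊔ B = ⊤)
    (h : ∀ x : T, x ≠ 1 → ∀ y, (y ∈ A ∨ y ∈ B) → ∃ w : List T, w.length ≤ m ∧
      (∀ u ∈ w, IsConj x u ∨ IsConj x⁻¹ u) ∧ w.prod = y) :
    ∀ (d : ℕ) (ρ : T →* Matrix (Fin d) (Fin d) ℂ),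
      (∀ v : Fin d → ℂ, (∀ x, (ρ x).mulVec v = v) → v = 0) → ∀ x, x ≠ 1 →
        (Matrix.trace (ρ x)).re ≤ (1 - 1 / (2 * (m : ℝ) ^ 2)) * d := by
  classical
  cases nonempty_fintype T
  intro d ρ hρ x hx
  obtain ⟨f, h0, h2, hmul, hi, hc⟩ := exists_len ρ
  have h1 : f 1 = 0 := by
    have h3 := h2 1
    rw [map_one, trace_one, Fintype.card_fin, Complex.natCast_re] at h3
    have h4 : f 1 ^ 2 = 0 := by rw [h3]; ring
    exact pow_eq_zero_iff (two_ne_zero) |>.1 h4
  have key : ∀ A' : Subgroup T, (∀ y ∈ A', f y ≤ m * f x) →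
      2 * ((d : ℝ) - Module.finrank ℂ (fixed ρ A')) ≤ (m : ℝ) ^ 2 * f x ^ 2 := by
    intro A' hA'
    have hcard : (0 : ℝ) < Fintype.card A' := by exact_mod_cast Fintype.card_pos
    have h3 : ∑ a : A', f a ^ 2 ≤ (Fintype.card A' : ℝ) * ((m : ℝ) ^ 2 * f x ^ 2) := by
      calc ∑ a : A', f a ^ 2 ≤ ∑ _a : A', (m : ℝ) ^ 2 * f x ^ 2 := by
            refine sum_le_sum fun a _ => ?_
            rw [← mul_pow]
            exact pow_le_pow_left₀ (h0 a) (hA' a a.2) 2
        _ = _ := by rw [sum_const, card_univ, nsmul_eq_mul]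
    have h4 : ∑ a : A', f a ^ 2 = (Fintype.card A' : ℝ) *
        (2 * ((d : ℝ) - Module.finrank ℂ (fixed ρ A'))) := by
      have h5 := congrArg Complex.re (sum_trace ρ A')
      rw [Complex.re_sum, ← Nat.cast_mul, Complex.natCast_re, Nat.cast_mul] at h5
      have h7 : ∑ a : A', 2 * (trace (ρ a)).re = 2 * ∑ a : A', (trace (ρ a)).re :=
        (mul_sum _ _ _).symm
      rw [sum_congr rfl fun (a : A') _ => h2 a, sum_sub_distrib, h7, h5, sum_const,
        card_univ, nsmul_eq_mul]
      ring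
    rw [h4] at h3
    exact le_of_mul_le_mul_left h3 hcard
  have hle : ∀ y, (y ∈ A ∨ y ∈ B) → f y ≤ m * f x := by
    intro y hy
    obtain ⟨w, hw, hwc, hwp⟩ := h x hx y hy
    rw [← hwp]
    exact len_word h0 h1 hmul hi hc w hw hwc
  have kA := key A fun y hy => hle y (Or.inl hy)
  have kB := key B fun y hy => hle y (Or.inr hy)
  have hmp : (0 : ℝ) < (m : ℝ) ^ 2 := by positivity
  by_contra hcon
  push Not at hcon
  have h3 : (m : ℝ) ^ 2 * f x ^ 2 < d := by
    rw [h2]
    have e : (m : ℝ) ^ 2 * (2 * d - 2 * ((1 - 1 / (2 * (m : ℝ) ^ 2)) * d)) = d := by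
      field_simp
      ring
    calc (m : ℝ) ^ 2 * (2 * d - 2 * (trace (ρ x)).re)
        < (m : ℝ) ^ 2 * (2 * d - 2 * ((1 - 1 / (2 * (m : ℝ) ^ 2)) * d)) :=
          mul_lt_mul_of_pos_left (by linarith) hmp
      _ = d := e
  have hA2 : d < 2 * Module.finrank ℂ (fixed ρ A) := by
    have : (d : ℝ) < 2 * (Module.finrank ℂ (fixed ρ A) : ℝ) := by linarith
    exact_mod_cast this
  have hB2 : d < 2 * Module.finrank ℂ (fixed ρ B) := by
    have : (d : ℝ) < 2 * (Module.finrank ℂ (fixed ρ B) : ℝ) := by linarith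
    exact_mod_cast this
  have hnd : ¬ Disjoint (fixed ρ A) (fixed ρ B) := by
    intro hd
    have h4 := Submodule.finrank_add_finrank_le_of_disjoint hd
    rw [Module.finrank_fin_fun] at h4
    omega
  apply hnd
  rw [Submodule.disjoint_def]
  intro v hvA hvB
  exact hρ v fun x => fixed_inf hAB hvA hvB x

end Vale.Agent.P318.R2.H924
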