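import Vale.Agent.P318.R2.H402.TwoDef
import Vale.Agent.P318.R2.H678.GapDef
import Vale.Agent.P318.R2.H924.TwoOf

/-!
# The gap from two subgroups: final form
-/

namespace Vale.Agent.P318.R2.H924

variable {T : Type*} [Group T]

/-- two subgroups which generate, made of products of at most `m` conjugates -/
theorem gap_of_two [Finite T] {m : ℕ} (hm : 0 < m) (h : R2.H402.Two T m) :
    R2.H678.Gap T (1 / (2 * (m : ℝ) ^ 2)) := by
  obtain ⟨A, B, hAB, h1⟩ := h
  exact gap_of_subgroups hm A B hAB h1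

/-- bounded conjugacy diameter -/
theorem gap_of_diameter [Finite T] {l : ℕ}
    (hl : ∀ x y : T, x ≠ 1 → ∃ w : List T, w.length ≤ l ∧
      (∀ u ∈ w, IsConj x u ∨ IsConj x⁻¹ u) ∧ w.prod = y) :
    R2.H678.Gap T (1 / (l : ℝ) ^ 2) :=
  gap_of_diam hl

/-- a smaller gap is a weaker statement -/
theorem Gap.mono {κ κ' : ℝ} (h : R2.H678.Gap T κ) (hk : κ' ≤ κ) : R2.H678.Gap T κ' := by
  intro d ρ hρ x hx
  refine (h d ρ hρ x hx).trans ?_
  exact mul_le_mul_of_nonneg_right (by linarith) (Nat.cast_nonneg d)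

/-- the gap is invariant under isomorphism -/
theorem Gap.congr {T' : Type*} [Group T'] {κ : ℝ} (h : R2.H678.Gap T κ) (e : T' ≃* T) :
    R2.H678.Gap T' κ := by
  intro d ρ hρ x hx
  have h1 := h d (ρ.comp e.symm.toMonoidHom) (fun v hv => hρ v fun y => by
    have h2 := hv (e y)
    simpa using h2) (e x) (fun h2 => hx (by simpa using h2))
  simpa using h1

end Vale.Agent.P318.R2.H924
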