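import Vale.Agent.P318.R2.H924.Struct

/-!
# A subadditive class function is large off the centraliser
-/

namespace Vale.Agent.P318.R2.H924

variable {G : Type*} [Group G]

/-- commutators cost twice -/
lemma f_comm {f : G → ℝ} (hm : ∀ x y, f (x * y) ≤ f x + f y)
    (hi : ∀ x, f x⁻¹ = f x) (hcj : ∀ x y, f (x * y * x⁻¹) = f y) (a b : G) :
    f (a * b * a⁻¹ * b⁻¹) ≤ 2 * f a := by
  have h1 := hm a (b * a⁻¹ * b⁻¹)
  rw [hcj, hi] at h1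
  have e : a * (b * a⁻¹ * b⁻¹) = a * b * a⁻¹ * b⁻¹ := by group
  rw [e] at h1
  linarith

/-- If a subadditive class function is at least `t` on the simple section off `Z`, then it is at
least `t / 4` at every element which moves `N` modulo `Z`. -/
theorem far_gap (Z N L : Subgroup G) [Z.Normal] (hN : N.Normal)
    (hlast : ∀ m ∈ N, m ∉ Z → ∃ h : G, ∃ y ∈ L,
      (h * m * h⁻¹) * y * (h * m * h⁻¹)⁻¹ * y⁻¹ ∈ L ∧
      (h * m * h⁻¹) * y * (h * m * h⁻¹)⁻¹ * y⁻¹ ∉ Z)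
    {f : G → ℝ} (hm : ∀ x y, f (x * y) ≤ f x + f y)
    (hi : ∀ x, f x⁻¹ = f x) (hcj : ∀ x y, f (x * y * x⁻¹) = f y)
    {t : ℝ} (ht : ∀ x ∈ L, x ∉ Z → t ≤ f x) {g : G} (hg : g ∉ cen Z (N : Set G)) :
    t ≤ 4 * f g := by
  have h1 : ∃ n ∈ N, g * n * g⁻¹ * n⁻¹ ∉ Z := by
    by_contra hcon
    apply hg
    rw [mem_cen]
    intro s hs
    by_contra h
    exact hcon ⟨s, hs, h⟩
  obtain ⟨n, hnN, hgn⟩ := h1
  have h2 : g * n * g⁻¹ * n⁻¹ ∈ N := N.mul_mem (hN.conj_mem n hnN g) (N.inv_mem hnN)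
  obtain ⟨h, z, -, h3, h4⟩ := hlast _ h2 hgn
  have h5 := ht _ h3 h4
  have h6 := f_comm hm hi hcj (h * (g * n * g⁻¹ * n⁻¹) * h⁻¹) z
  rw [hcj] at h6
  have h7 := f_comm hm hi hcj g n
  linarith

end Vale.Agent.P318.R2.H924
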