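import Mathlib

/-!
# Small conjugacy diameter gives a gap of the character ratios
-/

namespace Vale.Agent.P318.R2.H924

open Matrix Finset
open scoped ComplexOrder MatrixOrder

variable {d : ℕ}

/-- the Hilbert-Schmidt norm -/
noncomputable def fn (X : Matrix (Fin d) (Fin d) ℂ) : ℝ :=
  ‖(WithLp.toLp 2 (fun p : Fin d × Fin d => X p.1 p.2) : EuclideanSpace ℂ (Fin d × Fin d))‖

lemma fn_nonneg (X : Matrix (Fin d) (Fin d) ℂ) : 0 ≤ fn X := norm_nonneg _

lemma fn_sq (X : Matrix (Fin d) (Fin d) ℂ) : fn X ^ 2 = (trace (Xᴴ * X)).re := by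
  unfold fn
  rw [EuclideanSpace.norm_sq_eq, trace, Complex.re_sum, Fintype.sum_prod_type, sum_comm]
  refine sum_congr rfl fun j _ => ?_
  rw [diag_apply, mul_apply, Complex.re_sum]
  refine sum_congr rfl fun i _ => ?_
  rw [conjTranspose_apply, Complex.star_def, ← Complex.normSq_eq_conj_mul_self,
    Complex.ofReal_re, Complex.normSq_eq_norm_sq]

lemma fn_add (X Y : Matrix (Fin d) (Fin d) ℂ) : fn (X + Y) ≤ fn X + fn Y := by
  unfold fn
  have h := norm_add_le
    (WithLp.toLp 2 (fun p : Fin d × Fin d => X p.1 p.2) : EuclideanSpace ℂ (Fin d × Fin d))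
    (WithLp.toLp 2 (fun p : Fin d × Fin d => Y p.1 p.2) : EuclideanSpace ℂ (Fin d × Fin d))
  refine le_trans (le_of_eq ?_) h
  congr 1

lemma fn_eq_of_sq {X Y : Matrix (Fin d) (Fin d) ℂ} (h : fn X ^ 2 = fn Y ^ 2) : fn X = fn Y :=
  (sq_eq_sq₀ (fn_nonneg X) (fn_nonneg Y)).1 h

lemma fn_neg (X : Matrix (Fin d) (Fin d) ℂ) : fn (-X) = fn X := by
  apply fn_eq_of_sq
  rw [fn_sq, fn_sq, conjTranspose_neg, neg_mul_neg]

lemma fn_unitary_mul {U : Matrix (Fin d) (Fin d) ℂ} (hU : Uᴴ * U = 1)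
    (X : Matrix (Fin d) (Fin d) ℂ) : fn (U * X) = fn X := by
  apply fn_eq_of_sq
  rw [fn_sq, fn_sq, conjTranspose_mul]
  have e : Xᴴ * Uᴴ * (U * X) = Xᴴ * X := by
    calc Xᴴ * Uᴴ * (U * X) = Xᴴ * (Uᴴ * U) * X := by simp only [Matrix.mul_assoc]
      _ = Xᴴ * X := by rw [hU, Matrix.mul_one]
  rw [e]

lemma fn_sub_one {U : Matrix (Fin d) (Fin d) ℂ} (hU : Uᴴ * U = 1) :
    fn (U - 1) ^ 2 = 2 * d - 2 * (trace U).re := by
  rw [fn_sq, conjTranspose_sub, conjTranspose_one]
  have e : (Uᴴ - 1) * (U - 1) = 1 + 1 - U - Uᴴ := by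
    rw [sub_mul, mul_sub, hU, Matrix.mul_one, Matrix.one_mul]
    abel
  rw [e, trace_sub, trace_sub, trace_add, trace_one, trace_conjTranspose, Fintype.card_fin]
  simp only [Complex.sub_re, Complex.add_re, Complex.natCast_re, Complex.star_def,
    Complex.conj_re]
  ring

variable {T : Type*} [Group T]

/-- unitarisation of a representation of a finite group -/
lemma exists_unitary [Fintype T] (ρ : T →* Matrix (Fin d) (Fin d) ℂ) :
    ∃ S S' : Matrix (Fin d) (Fin d) ℂ, S * S' = 1 ∧ S' * S = 1 ∧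
      ∀ x, (S * ρ x * S')ᴴ * (S * ρ x * S') = 1 := by
  classical
  set P : Matrix (Fin d) (Fin d) ℂ := ∑ x, (ρ x)ᴴ * ρ x with hP
  have hinv : ∀ y, (ρ y)ᴴ * P * ρ y = P := by
    intro y
    rw [hP, Matrix.mul_sum, Matrix.sum_mul]
    refine Fintype.sum_bijective (fun x => x * y) (Group.mulRight_bijective y) _ _ ?_
    intro x
    rw [map_mul, conjTranspose_mul]
    simp only [Matrix.mul_assoc]
  have hpd : P.PosDef := by
    have e : P = 1 + ∑ x ∈ univ.erase (1 : T), (ρ x)ᴴ * ρ x := by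
      rw [hP, ← add_sum_erase _ _ (mem_univ (1 : T)), map_one, conjTranspose_one,
        Matrix.one_mul]
    rw [e]
    refine PosDef.add_posSemidef PosDef.one ?_
    refine posSemidef_sum _ fun x _ => ?_
    exact posSemidef_conjTranspose_mul_self _
  obtain ⟨B, hB⟩ : ∃ B : Matrix (Fin d) (Fin d) ℂ, P = Bᴴ * B := by
    obtain ⟨B, hB⟩ := CStarAlgebra.nonneg_iff_eq_star_mul_self.mp hpd.posSemidef.nonneg
    exact ⟨B, hB⟩
  have hdet : IsUnit B.det := by
    have h1 : IsUnit P.det := (Matrix.isUnit_iff_isUnit_det _).1 hpd.isUnit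
    rw [hB, det_mul] at h1
    exact isUnit_of_mul_isUnit_right h1
  refine ⟨B, B⁻¹, mul_nonsing_inv B hdet, nonsing_inv_mul B hdet, ?_⟩
  intro x
  rw [conjTranspose_mul, conjTranspose_mul]
  have h2 : (B⁻¹)ᴴ * Bᴴ = 1 := by
    rw [← conjTranspose_mul, mul_nonsing_inv B hdet, conjTranspose_one]
  calc (B⁻¹)ᴴ * ((ρ x)ᴴ * Bᴴ) * (B * ρ x * B⁻¹)
      = (B⁻¹)ᴴ * ((ρ x)ᴴ * (Bᴴ * B) * ρ x) * B⁻¹ := by simp only [Matrix.mul_assoc]
    _ = (B⁻¹)ᴴ * P * B⁻¹ := by rw [← hB, hinv]
    _ = ((B⁻¹)ᴴ * Bᴴ) * (B * B⁻¹) := by rw [hB]; simp only [Matrix.mul_assoc]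
    _ = 1 := by rw [h2, mul_nonsing_inv B hdet, Matrix.one_mul]

/-- a representation without invariant vectors has a trace sum equal to zero -/
lemma sum_trace_eq_zero [Fintype T] (ρ : T →* Matrix (Fin d) (Fin d) ℂ)
    (h : ∀ v : Fin d → ℂ, (∀ x, (ρ x).mulVec v = v) → v = 0) :
    ∑ x, trace (ρ x) = 0 := by
  have h1 : ∑ x, ρ x = 0 := by
    ext i j
    have h2 := h (fun i => (∑ x, ρ x) i j) (by
      intro y
      have h3 : ρ y * ∑ x, ρ x = ∑ x, ρ x := by
        rw [Matrix.mul_sum]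
        refine Fintype.sum_bijective (fun x => y * x) (Group.mulLeft_bijective y) _ _ ?_
        intro x
        rw [map_mul]
      funext i
      have h4 := congrFun (congrFun h3 i) j
      rw [mul_apply] at h4
      exact h4)
    exact congrFun h2 i
  rw [← trace_sum, h1, trace_zero]

/-- A finite group in which, for each `x` other than `1`, every element is a product of at most
`l` conjugates of `x` and its inverse: in every representation without invariant vectors the real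
part of the trace at each such `x` is at most `(1 - 1 / l ^ 2)` times the dimension. -/
theorem gap_of_diam [Finite T] {l : ℕ}
    (hl : ∀ x y : T, x ≠ 1 → ∃ w : List T, w.length ≤ l ∧
      (∀ u ∈ w, IsConj x u ∨ IsConj x⁻¹ u) ∧ w.prod = y) :
    ∀ (d : ℕ) (ρ : T →* Matrix (Fin d) (Fin d) ℂ),
      (∀ v : Fin d → ℂ, (∀ x, (ρ x).mulVec v = v) → v = 0) → ∀ x, x ≠ 1 →
        (Matrix.trace (ρ x)).re ≤ (1 - 1 / (l : ℝ) ^ 2) * d := by
  classical
  cases nonempty_fintype T
  intro d ρ hρ x hx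
  obtain ⟨S, S', hS, hS', hU⟩ := exists_unitary ρ
  set V : T → Matrix (Fin d) (Fin d) ℂ := fun x => S * ρ x * S' with hV
  have hVm : ∀ a b, V (a * b) = V a * V b := by
    intro a b
    simp only [hV, map_mul]
    calc S * (ρ a * ρ b) * S' = S * ρ a * 1 * (ρ b * S') := by
          rw [Matrix.mul_one]; simp only [Matrix.mul_assoc]
      _ = S * ρ a * S' * (S * ρ b * S') := by
          rw [← hS']; simp only [Matrix.mul_assoc]
  have hV1 : V 1 = 1 := by
    simp only [hV, map_one, Matrix.mul_one, hS]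
  have htr : ∀ a, trace (V a) = trace (ρ a) := by
    intro a
    simp only [hV]
    rw [Matrix.trace_mul_comm, ← Matrix.mul_assoc, hS', Matrix.one_mul]
  set f : T → ℝ := fun a => fn (V a - 1) with hf
  have hf2 : ∀ a, f a ^ 2 = 2 * d - 2 * (trace (ρ a)).re := by
    intro a
    rw [← htr a]
    exact fn_sub_one (hU a)
  have hf0 : ∀ a, 0 ≤ f a := fun a => fn_nonneg _
  have hfe : ∀ a b, trace (ρ a) = trace (ρ b) → f a = f b := by
    intro a b hab
    apply fn_eq_of_sq
    have h1 := hf2 a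
    have h2 := hf2 b
    rw [← hab] at h2
    exact h1.trans h2.symm
  have hf1 : f 1 = 0 := by
    have h1 := hf2 1
    rw [map_one, trace_one, Fintype.card_fin, Complex.natCast_re] at h1
    have h2 : f 1 ^ 2 = 0 := by rw [h1]; ring
    exact pow_eq_zero_iff (two_ne_zero) |>.1 h2
  have hfm : ∀ a b, f (a * b) ≤ f a + f b := by
    intro a b
    have e : V (a * b) - 1 = (V a - 1) + V a * (V b - 1) := by
      rw [hVm, Matrix.mul_sub, Matrix.mul_one]
      abel
    calc f (a * b) = fn ((V a - 1) + V a * (V b - 1)) := by simp only [hf]; rw [e]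
      _ ≤ fn (V a - 1) + fn (V a * (V b - 1)) := fn_add _ _
      _ = f a + f b := by rw [fn_unitary_mul (hU a)]
  have hfi : ∀ a, f a⁻¹ = f a := by
    intro a
    have e : V a * (V a⁻¹ - 1) = -(V a - 1) := by
      rw [Matrix.mul_sub, ← hVm, mul_inv_cancel, hV1, Matrix.mul_one]
      abel
    calc f a⁻¹ = fn (V a * (V a⁻¹ - 1)) := (fn_unitary_mul (hU a) _).symm
      _ = f a := by rw [e, fn_neg]
  have hfc : ∀ a b, IsConj a b → f b = f a := by
    intro a b hab
    obtain ⟨c, rfl⟩ := isConj_iff.1 hab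
    apply hfe
    rw [map_mul, Matrix.trace_mul_comm, ← map_mul]
    have e : c⁻¹ * (c * a) = a := by group
    rw [e]
  have hword : ∀ (w : List T), (∀ u ∈ w, f u ≤ f x) → f w.prod ≤ w.length * f x := by
    intro w
    induction w with
    | nil => intro _; simp [hf1]
    | cons b w ih =>
      intro hw
      have h2 := ih fun u hu => hw u (List.mem_cons_of_mem _ hu)
      have h3 := hw b List.mem_cons_self
      have h4 := hfm b w.prod
      rw [List.prod_cons, List.length_cons]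
      push_cast
      linarith
  -- an element with nonpositive trace
  obtain ⟨y, hy⟩ : ∃ y, (trace (ρ y)).re ≤ 0 := by
    by_contra hcon
    push Not at hcon
    have h1 : 0 < ∑ y, (trace (ρ y)).re := sum_pos (fun y _ => hcon y) ⟨1, mem_univ _⟩
    rw [← Complex.re_sum, sum_trace_eq_zero ρ hρ, Complex.zero_re] at h1
    exact lt_irrefl _ h1
  obtain ⟨w, hw, hwc, hwp⟩ := hl x y hx
  have h1 : f y ≤ l * f x := by
    have h2 := hword w fun u hu => by
      rcases hwc u hu with h | h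
      · exact (hfc _ _ h).le
      · exact ((hfc _ _ h).trans (hfi x)).le
    rw [hwp] at h2
    refine h2.trans (mul_le_mul_of_nonneg_right ?_ (hf0 x))
    exact_mod_cast hw
  have hl0 : l ≠ 0 := by
    rintro rfl
    obtain ⟨w, hw, -, hwp⟩ := hl x x hx
    have : w = [] := List.length_eq_zero_iff.1 (Nat.le_zero.1 hw)
    rw [this, List.prod_nil] at hwp
    exact hx hwp.symm
  have hlp : (0 : ℝ) < (l : ℝ) ^ 2 := by positivity
  have h2 : (f y) ^ 2 ≤ (l : ℝ) ^ 2 * (f x) ^ 2 := by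
    have := pow_le_pow_left₀ (hf0 y) h1 2
    rwa [mul_pow] at this
  rw [hf2, hf2] at h2
  have h3 : (d : ℝ) ≤ (l : ℝ) ^ 2 * (d - (trace (ρ x)).re) := by nlinarith
  have h4 : (d : ℝ) / (l : ℝ) ^ 2 ≤ d - (trace (ρ x)).re := by
    rw [div_le_iff₀ hlp]
    linarith
  have e : (1 - 1 / (l : ℝ) ^ 2) * d = d - d / (l : ℝ) ^ 2 := by ring
  rw [e]
  linarith

end Vale.Agent.P318.R2.H924
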