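import Vale.Agent.P318.R2.H402.ThreeInv
import Vale.Agent.P318.R2.H678.Inv
import Vale.Agent.P318.R2.H924.LenOf

/-!
# Lengths on the alternating group: final form
-/

namespace Vale.Agent.P318.R2.H924

open Finset

variable {n : ℕ} {f : alternatingGroup (Fin n) → ℝ}

/-- A subadditive class function on the alternating group of degree `n`, `n` at least `40`, is at
most `288` times its value at any element which moves at least a quarter of the points. -/
theorem len (h0 : ∀ x, 0 ≤ f x) (h1 : f 1 = 0) (hm : ∀ x y, f (x * y) ≤ f x + f y)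
    (hi : ∀ x, f x⁻¹ = f x) (hcj : ∀ x y, f (x * y * x⁻¹) = f y) (hn : 40 ≤ n)
    {τ : alternatingGroup (Fin n)}
    (hτ : n ≤ 4 * (τ : Equiv.Perm (Fin n)).support.card) (y : alternatingGroup (Fin n)) :
    f y ≤ 288 * f τ :=
  len_of (fun y => R2.H402.three_inv (by omega) y)
    (fun a b ha hb h => R2.H678.conj_inv a b ha hb h)
    (fun S j h => R2.H678.comm_inv S j h)
    (fun _ ha => R2.H678.four_dvd ha)
    (fun v hv j hj => R2.H678.split_inv v hv j hj) h0 h1 hm hi hcj hn hτ y

/-- A bound for all commutators is a bound for all elements, up to a factor `3`. -/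
theorem all_comm (hn : 5 ≤ n) (hm : ∀ x y, f (x * y) ≤ f x + f y)
    (hcj : ∀ x y, f (x * y * x⁻¹) = f y)
    {B : ℝ} (hB : ∀ a b, f (a * b * a⁻¹ * b⁻¹) ≤ B) (y : alternatingGroup (Fin n)) :
    f y ≤ 3 * B :=
  all_comm_of (fun y => R2.H402.three_inv hn y)
    (fun a b ha hb h => R2.H678.conj_inv a b ha hb h)
    (fun S j h => R2.H678.comm_inv S j h)
    (fun _ ha => R2.H678.four_dvd ha) hm hcj hB y

end Vale.Agent.P318.R2.H924
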