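import Vale.Agent.P318.R2.H924.Struct

/-!
# The simple quotient and lifting of words
-/

namespace Vale.Agent.P318.R2.H924

variable {G : Type*} [Group G]

lemma subnormal_of {N L : Subgroup G} (hN : N.Normal) (hLN : L ≤ N)
    (hn : ∀ n ∈ N, ∀ x ∈ L, n * x * n⁻¹ ∈ L) : L.IsSubnormal := by
  refine Subgroup.IsSubnormal.step L N hLN hN.isSubnormal ⟨?_⟩
  intro x hx g
  rw [Subgroup.mem_subgroupOf] at hx ⊢
  exact hn g g.2 _ hx

lemma normal_subgroupOf_of {W L : Subgroup G} (hW : ∀ x ∈ L, ∀ w ∈ W, x * w * x⁻¹ ∈ W) :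
    (W.subgroupOf L).Normal := by
  constructor
  intro x hx g
  rw [Subgroup.mem_subgroupOf] at hx ⊢
  exact hW g g.2 _ hx

/-- no intermediate normal subgroup: the quotient is simple -/
theorem simple_of {W L : Subgroup G} [(W.subgroupOf L).Normal] (hWL : W ≤ L) (hne : ¬ L ≤ W)
    (hR : ∀ R : Subgroup G, W ≤ R → R ≤ L → (∀ x ∈ L, ∀ r ∈ R, x * r * x⁻¹ ∈ R) →
      R = W ∨ R = L) :
    IsSimpleGroup (L ⧸ W.subgroupOf L) := by
  have hmem : ∀ (H : Subgroup (L ⧸ W.subgroupOf L)) (x : L),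
      (x : G) ∈ (H.comap (QuotientGroup.mk' (W.subgroupOf L))).map L.subtype ↔
        QuotientGroup.mk' (W.subgroupOf L) x ∈ H := by
    intro H x
    rw [Subgroup.mem_map]
    constructor
    · rintro ⟨y, hy, hyx⟩
      have : y = x := Subtype.ext hyx
      rw [← this]
      exact hy
    · intro h
      exact ⟨x, h, rfl⟩
  refine { exists_pair_ne := ?_, eq_bot_or_eq_top_of_normal := ?_ }
  · obtain ⟨x, hx, hxW⟩ := Set.not_subset.1 hne
    refine ⟨QuotientGroup.mk' (W.subgroupOf L) ⟨x, hx⟩, 1, ?_⟩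
    intro h
    apply hxW
    have h1 := (QuotientGroup.eq_one_iff (N := W.subgroupOf L) (⟨x, hx⟩ : L)).1 h
    exact Subgroup.mem_subgroupOf.1 h1
  · intro H hH
    have h1 : W ≤ (H.comap (QuotientGroup.mk' (W.subgroupOf L))).map L.subtype := by
      intro w hw
      refine (hmem H ⟨w, hWL hw⟩).2 ?_
      have h2 : QuotientGroup.mk' (W.subgroupOf L) (⟨w, hWL hw⟩ : L) = 1 :=
        (QuotientGroup.eq_one_iff (N := W.subgroupOf L) (⟨w, hWL hw⟩ : L)).2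
          (Subgroup.mem_subgroupOf.2 hw)
      rw [h2]
      exact H.one_mem
    have h2 : (H.comap (QuotientGroup.mk' (W.subgroupOf L))).map L.subtype ≤ L :=
      Subgroup.map_subtype_le _
    have h3 : ∀ x ∈ L, ∀ r ∈ (H.comap (QuotientGroup.mk' (W.subgroupOf L))).map L.subtype,
        x * r * x⁻¹ ∈ (H.comap (QuotientGroup.mk' (W.subgroupOf L))).map L.subtype := by
      intro x hx r hr
      have hrL := h2 hr
      have h4 := (hmem H ⟨r, hrL⟩).1 hr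
      refine (hmem H (⟨x, hx⟩ * ⟨r, hrL⟩ * ⟨x, hx⟩⁻¹)).2 ?_
      rw [map_mul, map_mul, map_inv]
      exact hH.conj_mem _ h4 _
    rcases hR _ h1 h2 h3 with h | h
    · left
      rw [Subgroup.eq_bot_iff_forall]
      intro q hq
      obtain ⟨x, rfl⟩ := QuotientGroup.mk'_surjective (W.subgroupOf L) q
      have h4 := (hmem H x).2 hq
      rw [h] at h4
      exact (QuotientGroup.eq_one_iff (N := W.subgroupOf L) x).2 (Subgroup.mem_subgroupOf.2 h4)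
    · right
      rw [Subgroup.eq_top_iff']
      intro q
      obtain ⟨x, rfl⟩ := QuotientGroup.mk'_surjective (W.subgroupOf L) q
      refine (hmem H x).1 ?_
      rw [h]
      exact x.2

lemma noncomm_of {W L : Subgroup G} [(W.subgroupOf L).Normal]
    (h : ∃ x ∈ L, ∃ y ∈ L, x * y * x⁻¹ * y⁻¹ ∉ W) :
    ∃ a b : L ⧸ W.subgroupOf L, a * b ≠ b * a := by
  obtain ⟨x, hx, y, hy, hxy⟩ := h
  refine ⟨QuotientGroup.mk' (W.subgroupOf L) ⟨x, hx⟩,
    QuotientGroup.mk' (W.subgroupOf L) ⟨y, hy⟩, ?_⟩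
  intro hc
  have h1 := (cm_iff (W.subgroupOf L) ⟨x, hx⟩ ⟨y, hy⟩).2 hc
  exact hxy (Subgroup.mem_subgroupOf.1 h1)

/-- words in the quotient lift to words in the group -/
theorem lift_word {W L : Subgroup G} [(W.subgroupOf L).Normal] {x y : G} (hx : x ∈ L) (hy : y ∈ L)
    {l : ℕ} (h : ∃ w : List (L ⧸ W.subgroupOf L), w.length ≤ l ∧
      (∀ u ∈ w, IsConj (QuotientGroup.mk' (W.subgroupOf L) ⟨x, hx⟩) u ∨
        IsConj (QuotientGroup.mk' (W.subgroupOf L) ⟨x, hx⟩)⁻¹ u) ∧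
      w.prod = QuotientGroup.mk' (W.subgroupOf L) ⟨y, hy⟩) :
    ∃ w : List G, w.length ≤ l ∧
      (∀ u ∈ w, ∃ g ∈ L, u = g * x * g⁻¹ ∨ u = g * x⁻¹ * g⁻¹) ∧
      w.prod ∈ L ∧ w.prod⁻¹ * y ∈ W := by
  obtain ⟨w, hw, hwc, hwp⟩ := h
  have key : ∀ w : List (L ⧸ W.subgroupOf L),
      (∀ u ∈ w, IsConj (QuotientGroup.mk' (W.subgroupOf L) ⟨x, hx⟩) u ∨
        IsConj (QuotientGroup.mk' (W.subgroupOf L) ⟨x, hx⟩)⁻¹ u) →
      ∃ v : List L, v.length = w.length ∧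
        (∀ u ∈ v, ∃ g : L, u = g * ⟨x, hx⟩ * g⁻¹ ∨ u = g * ⟨x, hx⟩⁻¹ * g⁻¹) ∧
        QuotientGroup.mk' (W.subgroupOf L) v.prod = w.prod := by
    intro w
    induction w with
    | nil => exact fun _ => ⟨[], rfl, fun u hu => absurd hu List.not_mem_nil, map_one _⟩
    | cons a w ih =>
      intro hw
      obtain ⟨v, h1, h2, h3⟩ := ih fun u hu => hw u (List.mem_cons_of_mem _ hu)
      have h4 : ∃ b : L, (∃ g : L, b = g * ⟨x, hx⟩ * g⁻¹ ∨ b = g * ⟨x, hx⟩⁻¹ * g⁻¹) ∧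
          QuotientGroup.mk' (W.subgroupOf L) b = a := by
        rcases hw a List.mem_cons_self with h | h
        · obtain ⟨q, hq⟩ := isConj_iff.1 h
          obtain ⟨g, rfl⟩ := QuotientGroup.mk'_surjective (W.subgroupOf L) q
          refine ⟨g * ⟨x, hx⟩ * g⁻¹, ⟨g, Or.inl rfl⟩, ?_⟩
          rw [map_mul, map_mul, map_inv]
          exact hq
        · obtain ⟨q, hq⟩ := isConj_iff.1 h
          obtain ⟨g, rfl⟩ := QuotientGroup.mk'_surjective (W.subgroupOf L) q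
          refine ⟨g * ⟨x, hx⟩⁻¹ * g⁻¹, ⟨g, Or.inr rfl⟩, ?_⟩
          rw [map_mul, map_mul, map_inv, map_inv]
          exact hq
      obtain ⟨b, hb, hba⟩ := h4
      refine ⟨b :: v, by simp [h1], ?_, ?_⟩
      · intro u hu
        rcases List.mem_cons.1 hu with h | h
        · rw [h]
          exact hb
        · exact h2 u h
      · rw [List.prod_cons, List.prod_cons, map_mul, h3, hba]
  obtain ⟨v, h1, h2, h3⟩ := key w hwc
  have hprod : (v.map (fun u : L => (u : G))).prod = (v.prod : G) := by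
    have := (L.subtype).map_list_prod v
    exact this.symm
  refine ⟨v.map (fun u : L => (u : G)), by simpa [h1] using hw, ?_, ?_, ?_⟩
  · intro u hu
    obtain ⟨a, ha, rfl⟩ := List.mem_map.1 hu
    obtain ⟨g, hg | hg⟩ := h2 a ha
    · exact ⟨g, g.2, Or.inl (by rw [hg]; rfl)⟩
    · exact ⟨g, g.2, Or.inr (by rw [hg]; rfl)⟩
  · rw [hprod]
    exact (v.prod).2
  · rw [hprod]
    have h4 : QuotientGroup.mk' (W.subgroupOf L) (v.prod⁻¹ * ⟨y, hy⟩) = 1 := by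
      rw [map_mul, map_inv, h3, hwp, inv_mul_cancel]
    have h5 := (QuotientGroup.eq_one_iff (N := W.subgroupOf L) _).1 h4
    exact Subgroup.mem_subgroupOf.1 h5

/-- the words supplied by the hypothesis on composition factors -/
theorem words [Finite G] {l : ℕ}
    (hl : ∀ L : Subgroup G, L.IsSubnormal → ∀ (R : Subgroup L) [R.Normal], IsSimpleGroup (L ⧸ R) →
      (∃ a b : L ⧸ R, a * b ≠ b * a) → ∀ x y : L ⧸ R, x ≠ 1 →
        ∃ w : List (L ⧸ R), w.length ≤ l ∧ (∀ u ∈ w, IsConj x u ∨ IsConj x⁻¹ u) ∧ w.prod = y)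
    (Z N L : Subgroup G) [Z.Normal] (hN : N.Normal) (hL0 : N ⊓ Z ≤ L) (hLN : L ≤ N)
    (hn : ∀ n ∈ N, ∀ x ∈ L, n * x * n⁻¹ ∈ L) (hab : ∃ x ∈ L, ∃ y ∈ L, x * y * x⁻¹ * y⁻¹ ∉ Z)
    (hR : ∀ R : Subgroup G, N ⊓ Z ≤ R → R ≤ L → (∀ x ∈ L, ∀ r ∈ R, x * r * x⁻¹ ∈ R) →
      R = N ⊓ Z ∨ R = L)
    {x y : G} (hx : x ∈ L) (hxZ : x ∉ Z) (hy : y ∈ L) :
    ∃ w : List G, w.length ≤ l ∧
      (∀ u ∈ w, ∃ g ∈ L, u = g * x * g⁻¹ ∨ u = g * x⁻¹ * g⁻¹) ∧
      w.prod ∈ L ∧ w.prod⁻¹ * y ∈ Z := by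
  have hWn : ∀ a ∈ L, ∀ w ∈ N ⊓ Z, a * w * a⁻¹ ∈ N ⊓ Z := fun a _ w hw =>
    ⟨hN.conj_mem w hw.1 a, (inferInstance : Z.Normal).conj_mem w hw.2 a⟩
  have := normal_subgroupOf_of hWn
  have hne : ¬ L ≤ N ⊓ Z := fun h => hxZ (h hx).2
  have hsimple := simple_of hL0 hne hR
  have hnc : ∃ x ∈ L, ∃ y ∈ L, x * y * x⁻¹ * y⁻¹ ∉ N ⊓ Z := by
    obtain ⟨a, ha, b, hb, h⟩ := hab
    exact ⟨a, ha, b, hb, fun h1 => h h1.2⟩
  have h1 := hl L (subnormal_of hN hLN hn) ((N ⊓ Z).subgroupOf L) hsimple (noncomm_of hnc)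
    (QuotientGroup.mk' _ ⟨x, hx⟩) (QuotientGroup.mk' _ ⟨y, hy⟩) (by
      intro h
      apply hxZ
      have h2 := (QuotientGroup.eq_one_iff (N := (N ⊓ Z).subgroupOf L) (⟨x, hx⟩ : L)).1 h
      exact (Subgroup.mem_subgroupOf.1 h2).2)
  obtain ⟨w, h2, h3, h4, h5⟩ := lift_word hx hy h1
  exact ⟨w, h2, h3, h4, h5.2⟩

end Vale.Agent.P318.R2.H924
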